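import Crest.Agent.X262.Man.PM
import Crest.Agent.X262.Coh.Defs

/-!
# Row 262, MAN (helper16), part 5: the de Rham theory as a `Coh.Th`

* `thOf typ c1 Lam : Coh.Th` : even de Rham classes; types, first Chern class and integral classes
  are parameters;
* `C1Ax c1`, `C1Num c1` : the fields of `MAN` which involve `c1`; `man_of`.
-/

set_option autoImplicit false
set_option linter.unusedSectionVars false
set_option linter.style.haveILetI false

noncomputable section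

namespace Crest.Agent.X262.Man

open Crest.Agent.R208.CW Crest.Agent.R208.T
open Crest.Agent.X277 Crest.Agent.X277.Lef Crest.Agent.X277.AN.G1 Crest.Agent.X277.BD
open Crest.Agent.X262.Coh

/-- the de Rham theory -/
@[reducible] def thOf (typ : ∀ X : SV, ℕ → ℕ → Submodule ℂ (HP X.P))
    (c1 : ∀ X : SV, BD ℂ X.F → HP X.P) (Lam : ∀ X : SV, AddSubgroup (HP X.P)) : Th where
  H X := HP X.P
  dg X := dgP X.P
  typ := typ
  itg X := intP X.P
  pb μ := pullH μ
  cj X := H.conj (XP X.P)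
  c1 := c1
  Lam := Lam

/-- the formal properties of the first Chern class -/
structure C1Ax (c1 : ∀ X : SV, BD ℂ X.F → HP X.P) : Prop where
  dg : ∀ X, ∀ a ∈ X.On, c1 X a ∈ dgP X.P 1
  add : ∀ X, ∀ a ∈ X.On, ∀ b ∈ X.On, c1 X (a + b) = c1 X a + c1 X b
  pr : ∀ (X : SV) (f : X.F), c1 X (pr ℂ f) = 0
  pb : ∀ {X Y : SV} (μ : Hom X Y), ∀ a ∈ Y.On, ∀ a', LPb μ a a' → pullH μ (c1 Y a) = c1 X a'
  cj : ∀ X, ∀ a ∈ X.On, H.conj (XP X.P) (c1 X a) = c1 X a

/-- intersection numbers are integrals -/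
def C1Num (c1 : ∀ X : SV, BD ℂ X.F → HP X.P) : Prop :=
  ∀ (X : SV) (l : List (BD ℂ X.F)), (∀ a ∈ l, a ∈ X.On) →
    intP X.P (l.map (c1 X)).prod = (bnum l : ℤ)

theorem man_of (typ : ∀ X : SV, ℕ → ℕ → Submodule ℂ (HP X.P))
    {c1 : ∀ X : SV, BD ℂ X.F → HP X.P} (Lam : ∀ X : SV, AddSubgroup (HP X.P)) (h : C1Ax c1)
    (h' : C1Num c1) : (thOf typ c1 Lam).MAN where
  pb_congr _ _ h := pullH_congr h
  pb_comp μ ν a := pullH_comp μ ν a
  pb_id _ a := pullH_id X277.Cns.idM_map a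
  dg_int _ := HD_isInternal
  dg_one _ := one_mem_HD
  dg_mul _ _ _ _ _ ha hb := dgP_mul ha hb
  dg_zero _ _ ha := dgP_zero ha
  dg_gt _ _ hk := dgP_gt hk
  itg_dg _ _ hk _ ha := intP_dg hk ha
  pb_dg μ _ _ ha := pullH_dg μ ha
  c1_dg := h.dg
  c1_add := h.add
  c1_pr := h.pr
  c1_pb := h.pb
  c1_num := h'
  cj_alg _ c := conj_alg c
  cj_cj _ a := H.conj_conj a
  cj_dg _ _ _ ha := HD_conj ha
  cj_itg _ a := intP_conj a
  cj_pb μ a := pullH_conj μ a
  cj_c1 := h.cj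

end Crest.Agent.X262.Man
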