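import Crest.Agent.X262.Man.Ori
import Crest.Agent.R208.DEG2
import Crest.Agent.R208.T2b
import Crest.Agent.R208.CW1c
import Crest.Agent.R271.Null_821
import Crest.Agent.X277.AN.G1Mor
import Crest.Agent.X277.AN.G1Ch
import Crest.Agent.X277.AN.G1TayB
import Crest.Agent.X277.AN.G1Conn
import Crest.Agent.X277.BD.Mdl

/-!
# Row 262, MAN (helper16), part 4: the manifold of a projective model

* `HD_isInternal`, `HD_zero`, `integ_HD`, `HD_conj` : the grading of `H X`;
* `jP P : Pts P → Hm P.N`, `XP P = range (jP P)`, `emb X : Emb X.A (Hm P.N)` for `X : AnP P n`;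
* `an P` a chosen atlas, `em P`, `HP P = H (XP P)`, `intP P`, `volP P`; `intP_eq`, `volP_eq`;
* `ambM μ`, `smapM μ`, `pullH μ : HP P →ₐ[ℂ] HP P'`, `pullH_congr`, `pullH_comp`, `pullH_id`;
* `vol_ev_zero` : proper Zariski closed sets are null.
-/

set_option autoImplicit false
set_option linter.unusedSectionVars false
set_option linter.style.haveILetI false

open Set Filter Topology Function Module MeasureTheory
open scoped ContDiff KaehlerDifferential

noncomputable section

namespace Crest.Agent.X262.Man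

open Crest.Agent.R208.F Crest.Agent.R208.FI Crest.Agent.R208.CW Crest.Agent.R208.T
open Crest.Agent.R275.Geo (Cn RI rc Atl)
open Crest.Agent.R273.Map_835 (HolMap)
open Crest.Agent.R257.PN_835 (HC nsq pm pm_apply nsq_pos lft)
open Crest.Agent.X277.Lef Crest.Agent.X277.AN.G1
open Crest.Agent.X277.BD (dim)

/-! ### the grading -/

section grading

variable {E : Type} [NormedAddCommGroup E] [NormedSpace ℝ E] [FiniteDimensional ℝ E] {X : Set E}

theorem EC.dp {a : E → Ext E} (h : EC X a) (j : ℕ) : EC X (dp (2 * j) a) :=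
  EC.of_hom (h.sm.dp _) (h.cl.dp _ h.sm) (hom_dp _ _)

theorem sum_range_two {G : Type*} [AddCommMonoid G] (f : ℕ → G) (h : ∀ j, f (2 * j + 1) = 0)
    (m : ℕ) : ∑ j ∈ Finset.range (2 * m), f j = ∑ j ∈ Finset.range m, f (2 * j) := by
  induction m with
  | zero => simp
  | succ m ih =>
    rw [Nat.mul_succ, Finset.sum_range_succ, Finset.sum_range_succ, ih, h, add_zero,
      Finset.sum_range_succ]

theorem dpl_odd {c : Ext E} (h : inv c = c) (j : ℕ) : dpl (2 * j + 1) c = 0 := by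
  refine ext_evA fun q => ?_
  rw [evA_dpl, map_zero]
  split_ifs with hq
  · have h3 := evA_inv q c
    have h4 : ((-1 : ℝ)) ^ q = -1 := by rw [hq, pow_succ, pow_mul]; simp
    rw [h, h4] at h3
    ext v
    have h5 := congrArg (fun A => A v) h3
    simp only [AlternatingMap.smul_apply, smul_eq_mul] at h5
    change evA E q c v = 0
    linarith
  · rfl

theorem sum_dpl_even {c : Ext E} (h : inv c = c) :
    ∑ j ∈ Finset.range (finrank ℝ E + 1), dpl (2 * j) c = c := by
  rw [← sum_range_two (fun j => dpl j c) (dpl_odd h)]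
  refine ext_evA fun q => ?_
  rw [_root_.map_sum]
  simp only [evA_dpl]
  rw [Finset.sum_ite_eq]
  split_ifs with h1
  · rfl
  · rw [Finset.mem_range] at h1
    exact (evA_eq_zero_of_gt (by omega) c).symm

theorem rcl_eq_sum {a : E → Ext E} (h : EC X a) :
    rcl h = ∑ j ∈ Finset.range (finrank ℝ E + 1), rcl (EC.dp h j) := by
  rw [← rcl_sum]
  exact rcl_of_eq _ _ (funext fun x => by
    rw [Finset.sum_apply]; exact (sum_dpl_even (h.inv x)).symm)

theorem HD_iSup : ⨆ k, HD X (2 * k) = ⊤ := by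
  refine eq_top_iff.2 fun c _ => ?_
  obtain ⟨a, b, ha, hb, rfl⟩ := exists_rcl c
  have key : ∀ {a : E → Ext E} (h : EC X a), rcl h ∈ ⨆ k, HD X (2 * k) := fun h => by
    rw [rcl_eq_sum h]
    exact Submodule.sum_mem _ fun j _ =>
      Submodule.mem_iSup_of_mem j (rcl_mem_HD _ (hom_dp _ _))
  exact add_mem (key ha) (Submodule.smul_mem _ _ (key hb))

theorem HD_isInternal : DirectSum.IsInternal fun k => HD X (2 * k) := by
  classical
  refine DirectSum.isInternal_submodule_of_iSupIndep_of_iSup_eq_top ?_ HD_iSup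
  rw [iSupIndep_iff_finsetSum_eq_zero_imp_eq_zero]
  intro s v hv h0 i hi
  have h1 := HD_independent (X := X) (s := s.image (2 * ·)) (c := fun j => v (j / 2))
    (Finset.forall_mem_image.2 fun j hj => by
      rw [Nat.mul_div_cancel_left j two_pos]; exact hv j hj)
    (by
      rw [Finset.sum_image fun a _ b _ h => Nat.eq_of_mul_eq_mul_left two_pos h, ← h0]
      exact Finset.sum_congr rfl fun j _ => by rw [Nat.mul_div_cancel_left j two_pos])
    (2 * i) (Finset.mem_image_of_mem _ hi)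
  rwa [Nat.mul_div_cancel_left i two_pos] at h1

theorem HD_zero {d : ℕ} (hX : Sub d X) (hc : IsPreconnected X) {a : H X} (ha : a ∈ HD X 0) :
    ∃ c : ℂ, a = algebraMap ℂ (H X) c := by
  obtain ⟨w, hw, hd, rfl⟩ := ha
  obtain ⟨⟨-, h2, h3⟩, -, h5, h6⟩ := mem_Z_iff.1 hw
  obtain ⟨r, hr⟩ := const_of_closed hX hc h2 h3 fun x => (hd x).1
  obtain ⟨s, hs⟩ := const_of_closed hX hc h5 h6 fun x => (hd x).2
  refine ⟨⟨r, s⟩, Eq.trans (cls_congr (h' := (Z X).algebraMap_mem ⟨r, s⟩) fun x hx => ?_)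
    ((H.mk X).commutes _)⟩
  exact congrArg (rs X x) (Cx.ext (hr x hx) (hs x hx))

theorem integ_HD {d p : ℕ} {o : E → Ext E} (hX : Clo d X) (ho : Ori d X o) (hp : p ≠ d) {a : H X}
    (ha : a ∈ HD X p) : integ hX ho a = 0 := by
  obtain ⟨w, hw, hd, rfl⟩ := ha
  rw [integ_cls]
  exact Complex.ext (J_eq_zero hX fun x _ v _ => by rw [(hd x).1 d hp.symm]; rfl)
    (J_eq_zero hX fun x _ v _ => by rw [(hd x).2 d hp.symm]; rfl)

theorem HD_conj {p : ℕ} {a : H X} (ha : a ∈ HD X p) : H.conj X a ∈ HD X p := by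
  obtain ⟨w, hw, hd, rfl⟩ := ha
  refine cls_mem_HD (conj_mem_Z hw) fun x => ⟨(hd x).1, ?_⟩
  simpa using (hd x).2.smul (-1)

theorem conj_alg (c : ℂ) :
    H.conj X (algebraMap ℂ (H X) c) = algebraMap ℂ (H X) (starRingEnd ℂ c) := by
  rw [Algebra.algebraMap_eq_smul_one, H.conj_smul, map_one, Algebra.algebraMap_eq_smul_one]

theorem conj_rcl {a : E → Ext E} (h : EC X a) : H.conj X (rcl h) = rcl h := by
  rw [rcl, H.conj_cls]
  exact cls_of_eq _ _ (funext fun x => Cx.ext rfl neg_zero)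

end grading

theorem Emb.integ_rcl {n : ℕ} {M : Type} [TopologicalSpace M] [CompactSpace M] {A : Atl n M}
    {E : Type} [NormedAddCommGroup E] [NormedSpace ℝ E] [FiniteDimensional ℝ E] (ε : Emb A E)
    {a : E → Ext E} (h : EC ε.X a) : ε.integ (rcl h) = ε.Int a := by
  rw [rcl, ε.integ_cls]
  exact Complex.ext rfl J_zero

/-! ### the embedding -/

/-- the ambient space -/
abbrev Hm (N : ℕ) : Type := EuclideanSpace ℂ (Fin (N + 1) × Fin (N + 1))

/-- a matrix as a vector -/
def ofM {N : ℕ} (Q : Matrix (Fin (N + 1)) (Fin (N + 1)) ℂ) : Hm N :=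
  WithLp.toLp 2 fun p => Q p.1 p.2

/-- a vector as a matrix -/
def toM {N : ℕ} (q : Hm N) : Matrix (Fin (N + 1)) (Fin (N + 1)) ℂ := Matrix.of fun a b => q (a, b)

@[simp] theorem ofM_apply {N : ℕ} (Q : Matrix (Fin (N + 1)) (Fin (N + 1)) ℂ)
    (a b : Fin (N + 1)) : ofM Q (a, b) = Q a b := rfl

@[simp] theorem toM_apply {N : ℕ} (q : Hm N) (a b : Fin (N + 1)) : toM q a b = q (a, b) := rfl

@[simp] theorem toM_ofM {N : ℕ} (Q : Matrix (Fin (N + 1)) (Fin (N + 1)) ℂ) : toM (ofM Q) = Q := rfl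

theorem contDiff_entry {N : ℕ} (p : Fin (N + 1) × Fin (N + 1)) :
    ContDiff ℝ ∞ fun q : Hm N => q p :=
  ((EuclideanSpace.proj p : Hm N →L[ℂ] ℂ).restrictScalars ℝ).contDiff

theorem contDiffAt_nsq {V : Type*} [NormedAddCommGroup V] [NormedSpace ℝ V] {m : ℕ}
    {Z : V → Fin m → ℂ} {x : V} (h : ∀ k, ContDiffAt ℝ ∞ (fun y => Z y k) x) :
    ContDiffAt ℝ ∞ (fun y => nsq (Z y)) x :=
  ContDiffAt.sum fun k _ => (h k).norm_sq ℝ

theorem contDiffAt_pm {V : Type*} [NormedAddCommGroup V] [NormedSpace ℝ V] {N : ℕ}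
    {Z : V → HC N} {x : V} (h : ∀ k, ContDiffAt ℝ ∞ (fun y => Z y k) x) (hZ : Z x ≠ 0)
    (a b : Fin (N + 1)) : ContDiffAt ℝ ∞ (fun y => pm (Z y) a b) x := by
  simp only [pm_apply, div_eq_mul_inv]
  refine ((h a).mul (Complex.conjCLE.contDiff.contDiffAt.comp x (h b))).mul ?_
  have h1 := Complex.ofRealCLM.contDiff.contDiffAt.comp x
    ((contDiffAt_nsq h).inv (nsq_pos hZ).ne')
  simpa [Function.comp_def] using h1

variable {F K : Type} [Field F] [Algebra ℂ F] [Field K] [Algebra ℂ K] {n : ℕ}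

/-- the embedding of the space of points -/
def jP (P : PModel ℂ F) (x : Pts P) : Hm P.N := ofM x.val.1

/-- the manifold -/
def XP (P : PModel ℂ F) : Set (Hm P.N) := range (jP P)

variable {P : PModel ℂ F}

theorem jP_mem (x : Pts P) : jP P x ∈ XP P := mem_range_self x

theorem jP_injective : Injective (jP P) := fun _ _ h =>
  Pts.ext (Subtype.ext (congrArg toM h))

theorem jP_eq {i : Fin (P.N + 1)} {x : Pts P} (hx : x ∈ pat P i) :
    jP P x = ofM (pm fun j => ev (P.y j / P.y i) x) := by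
  rw [funext (ev_y hx)]
  exact congrArg (fun Q => ofM Q.1) (R257.PN_835.cls_lft hx).symm

theorem ev_y_ne {i : Fin (P.N + 1)} {x : Pts P} (hx : x ∈ pat P i) :
    (fun j => ev (P.y j / P.y i) x) ≠ 0 := by
  rw [funext (ev_y hx)]
  exact R257.PN_835.lft_ne hx

theorem ev_y_eq {i : Fin (P.N + 1)} {x : Pts P} (hx : x ∈ pat P i) (j : Fin (P.N + 1)) :
    ev (P.y j / P.y i) x = jP P x (j, i) / jP P x (i, i) := ev_y hx j

theorem contDiffAt_ev {X : AnP P n} {α : X.A.ι} {x : Pts P} (hx : x ∈ (X.A.e α).source) {f : F}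
    (hf : f ∈ (lp x).O) : ContDiffAt ℝ ∞ (X.rd α (ev f)) (X.A.e α x) :=
  ((AnP.analyticAt_ev hx hf).contDiffAt (n := ∞)).restrict_scalars ℝ

theorem smOn_ev (X : AnP P n) (f : F) : SmOn X.A (reg P f) (ev f) := fun _ _ hx hf =>
  contDiffAt_ev hx hf

theorem sm_jP (X : AnP P n) : X.A.Sm (jP P) := by
  refine smOn_univ.1 fun α x hx _ => ?_
  have h1 : ContDiffAt ℝ ∞
      (fun w => ofM (pm fun j => X.rd α (ev (P.y j / P.y (X.r α))) w)) (X.A.e α x) := by
    refine (contDiffAt_piLp 2).2 fun p => ?_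
    refine contDiffAt_pm (fun k => contDiffAt_ev hx (y_mem (X.sub α x hx) k)) ?_ p.1 p.2
    rw [funext fun j => AnP.rd_self hx (ev (P.y j / P.y (X.r α)))]
    exact ev_y_ne (X.sub α x hx)
  refine h1.congr_of_eventuallyEq ?_
  filter_upwards [(X.A.e α).open_target.mem_nhds ((X.A.e α).map_source hx)] with w hw
  exact jP_eq (X.sub α _ ((X.A.e α).map_target hw))

/-- **the embedded manifold** of an atlas -/
def emb (X : AnP P n) : Emb X.A (Hm P.N) where
  j := jP P
  inj := jP_injective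
  sm := sm_jP X
  imm α z hz := by
    obtain ⟨x, hx, rfl⟩ : ∃ x ∈ (X.A.e α).source, X.A.e α x = z :=
      ⟨_, (X.A.e α).map_target hz, (X.A.e α).right_inv hz⟩
    refine (injective_iff_map_eq_zero _).2 fun v hv =>
      AnP.eq_zero_of_dv hx (X.sub α x hx) fun j => ?_
    have h1 : DifferentiableAt ℝ (fun q : Hm P.N => q (j, X.r α) * (q (X.r α, X.r α))⁻¹)
        (jP P ((X.A.e α).symm (X.A.e α x))) := by
      rw [(X.A.e α).left_inv hx]
      exact ((contDiff_entry _).differentiable (by simp) _).fun_mul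
        (((contDiff_entry _).differentiable (by simp) _).fun_inv (X.sub α x hx))
    have h2 := ((sm_jP X α).contDiffAt ((X.A.e α).open_target.mem_nhds hz)).differentiableAt
      (by simp)
    have h3 : X.rd α (ev (P.y j / P.y (X.r α))) =ᶠ[𝓝 (X.A.e α x)]
        (fun q : Hm P.N => q (j, X.r α) * (q (X.r α, X.r α))⁻¹) ∘
          fun w => jP P ((X.A.e α).symm w) := by
      filter_upwards [(X.A.e α).open_target.mem_nhds hz] with w hw
      exact (ev_y_eq (X.sub α _ ((X.A.e α).map_target hw)) j).trans (div_eq_mul_inv _ _)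
    have h4 := (AnP.diffAt hx (y_mem (X.sub α x hx) j)).fderiv_restrictScalars ℝ
    rw [h3.fderiv_eq, fderiv_comp (X.A.e α x) (f := fun w => jP P ((X.A.e α).symm w)) h1 h2] at h4
    have h5 := congrArg (fun L : Cn n →L[ℝ] ℂ => L v) h4
    simp only [ContinuousLinearMap.comp_apply, hv, map_zero] at h5
    exact h5.symm

@[simp] theorem emb_j (X : AnP P n) : (emb X).j = jP P := rfl

@[simp] theorem emb_X (X : AnP P n) : (emb X).X = XP P := rfl

variable (P)

theorem nonempty_an : Nonempty (AnP P (dim ℂ F)) := by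
  haveI := finite_kaehler P
  exact nonempty_AnP P (Module.finBasis F Ω[F⁄ℂ])

/-- a chosen atlas -/
def an : AnP P (dim ℂ F) := (nonempty_an P).some

/-- the embedding for the chosen atlas -/
abbrev em : Emb (an P).A (Hm P.N) := emb (an P)

theorem cloP : Clo (2 * dim ℂ F) (XP P) := (em P).clo

theorem subP : Sub (2 * dim ℂ F) (XP P) := (em P).sub

theorem connectedP : ConnectedSpace (Pts P) :=
  connected_of_dense fun _ hf => (an P).dense_ev_ne hf

theorem isConnected_XP : IsConnected (XP P) := by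
  haveI := connectedP P
  exact isConnected_range (em P).cont

/-- complex de Rham classes of even degree -/
abbrev HP : Type := H (XP P)

/-- the classes of degree `2 k` -/
abbrev dgP (k : ℕ) : Submodule ℂ (HP P) := HD (XP P) (2 * k)

/-- the integral of a real form -/
def IntP (w : Hm P.N → Ext (Hm P.N)) : ℝ := (em P).Int w

theorem oriP : Ori (2 * dim ℂ F) (XP P) (em P).ori := (em P).isOri

/-- the integral of a class -/
def intP : HP P →ₗ[ℂ] ℂ := integ (cloP P) (oriP P)

/-- the Fubini-Study volume (up to a constant) -/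
def volP : Measure (Pts P) := (em P).vol

instance : IsFiniteMeasure (volP P) := inferInstanceAs (IsFiniteMeasure (em P).vol)

instance : (volP P).IsOpenPosMeasure := inferInstanceAs (em P).vol.IsOpenPosMeasure

/-- the identity morphism -/
def idP : Mor P P where
  p := Plc.ofHom (AlgHom.id ℂ F)
  reg x := (exists_pat x).imp fun _ hi j => ⟨Algebra.mem_top, y_mem hi j⟩

variable {P}

theorem idP_map (x : Pts P) : (idP P).map x = x :=
  Mor.map_eq _ ⟨fun _ ha => ⟨Algebra.mem_top, ha⟩, fun _ _ => rfl⟩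

theorem holMap_id {m : ℕ} (X : AnP P n) (X' : AnP P m) : HolMap X.A X'.A fun x => x := by
  have h := (idP P).holMap X X'
  rwa [funext idP_map] at h

theorem dim_eq (X : AnP P n) : dim ℂ F = n := by
  obtain ⟨x⟩ : Nonempty (Pts P) := inferInstance
  have h := ((cloP P).finrank_Tan (jP_mem x)).symm.trans ((emb X).clo.finrank_Tan (jP_mem x))
  omega

/-- the complex orientation does not depend on the atlas -/
theorem cori_emb {X X' : AnP P n} {o : Hm P.N → Ext (Hm P.N)} (h : (emb X).COri o) :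
    (emb X').COri o := by
  refine ⟨h.cont, fun i z hz => ?_⟩
  obtain ⟨k, hk⟩ := X.A.cover ((X'.A.e i).symm z)
  have h1 : z ∈ R273.Map_835.dm X'.A X.A (fun x => x) i k := ⟨hz, hk⟩
  have h2 := (emb X').pull_pull (emb X) (holMap_id X' X) (g := fun q => q) (fun _ => rfl)
    (fun _ => differentiableAt_id) h1 o
  rw [show pull (fun q => q) o = o from funext (pull_id o)] at h2
  obtain ⟨u, rfl⟩ := (cL n).surjective z
  have h3 := ((emb X').chart i).top_ne_zero h.ori hz
  rw [(emb X').top_rpar hz] at h3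
  refine lt_of_le_of_ne ?_ h3.symm
  rw [h2, topC_pull_hol ((holMap_id X' X).diffAt h1)]
  exact mul_nonneg (Complex.normSq_nonneg _) (h.pos k _ ((X.A.e k).map_source hk)).le

theorem IntP_eq (X : AnP P n) (w : Hm P.N → Ext (Hm P.N)) : IntP P w = (emb X).Int w := by
  obtain rfl := dim_eq X
  exact (cori_emb (X' := X) (em P).cori).J_eq

theorem intP_cls {w : Hm P.N → CF (Hm P.N)} (h : w ∈ Z (XP P)) :
    intP P (cls w h) = ⟨IntP P fun y => (w y).re, IntP P fun y => (w y).im⟩ := integ_cls _ _ h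

theorem intP_eq (X : AnP P n) (a : HP P) : intP P a = (emb X).integ a := by
  obtain ⟨w, hw, rfl⟩ := H.exists_rep a
  rw [intP_cls, IntP_eq X, IntP_eq X]
  exact ((emb X).integ_cls hw).symm

theorem volP_eq (X : AnP P n) : volP P = (emb X).vol := by
  obtain rfl := dim_eq X
  rfl

theorem intP_rcl {w : Hm P.N → Ext (Hm P.N)} (h : EC (XP P) w) : intP P (rcl h) = IntP P w :=
  (em P).integ_rcl h

theorem intP_conj (a : HP P) : intP P (H.conj (XP P) a) = starRingEnd ℂ (intP P a) :=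
  integ_conj (cloP P) (oriP P) a

theorem intP_dg {k : ℕ} (hk : k ≠ dim ℂ F) {a : HP P} (ha : a ∈ dgP P k) : intP P a = 0 :=
  integ_HD (cloP P) (oriP P) (by omega) ha

theorem dgP_zero {a : HP P} (ha : a ∈ dgP P 0) : ∃ c : ℂ, a = algebraMap ℂ (HP P) c :=
  HD_zero (subP P) (isConnected_XP P).isPreconnected ha

theorem dgP_gt {k : ℕ} (hk : dim ℂ F < k) : dgP P k = ⊥ := HD_eq_bot_of_gt (subP P) (by omega)

theorem dgP_mul {i j : ℕ} {a b : HP P} (ha : a ∈ dgP P i) (hb : b ∈ dgP P j) :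
    a * b ∈ dgP P (i + j) := by
  have h := HD_mul ha hb
  rwa [← mul_add] at h

/-- **proper Zariski closed sets are null** -/
theorem vol_ev_zero {f : F} (hf : f ≠ 0) : volP P {x | ev f x = 0} = 0 := by
  refine (em P).vol_null_of_local fun x _ => ?_
  obtain ⟨α, hx⟩ := (an P).A.cover x
  obtain ⟨a, ha, c, hc, hc0, rfl⟩ := frac_lp x f
  have ha0 : a ≠ 0 := by
    rintro rfl
    exact hf (zero_div c)
  obtain ⟨r, hr, h1⟩ := R271.Local821.eventually_null_zero (volume : Measure (Cn (dim ℂ F)))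
    (AnP.analyticAt_ev hx (mul_mem ha hc))
    ((AnP.rz hx).frequently_ne (mul_mem ha hc) (mul_ne_zero ha0 hc0))
  rw [ae_restrict_iff' Metric.isOpen_ball.measurableSet, ae_iff] at h1
  refine ⟨α, hx, _, inter_mem (Metric.ball_mem_nhds _ hr)
    (AnP.eventually_rd hx ((eventually_mem ha).and (eventually_mem hc))),
    measure_mono_null ?_ h1⟩
  rintro z ⟨⟨h2, -, -, h3, h4⟩, -, h5⟩ h6
  have h7 := (LP.v_mul _ h3 h4).symm.trans_ne (h6 h2)
  exact div_ne_zero (left_ne_zero_of_mul h7) (right_ne_zero_of_mul h7)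
    ((LP.v_div h3 (right_ne_zero_of_mul h7)).symm.trans h5)

theorem ae_ev_ne {f : F} (hf : f ≠ 0) : ∀ᵐ x ∂volP P, ev f x ≠ 0 := by
  rw [ae_iff]
  simpa using vol_ev_zero hf

theorem ae_pat (i : Fin (P.N + 1)) : ∀ᵐ x ∂volP P, x ∈ pat P i := by
  have h : ∀ j, ∀ᵐ x ∂volP P, ev (P.y i / P.y j) x ≠ 0 := fun j =>
    ae_ev_ne (div_ne_zero (P.y_ne i) (P.y_ne j))
  filter_upwards [ae_all_iff.2 h] with x hx
  obtain ⟨j, hj⟩ := exists_pat x
  exact (mem_pat_iff hj).2 (hx j)

/-! ### morphisms -/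

variable {P' : PModel ℂ K}

/-- an ambient smooth map which induces a smooth map on the points -/
def ambP (P : PModel ℂ F) {G : Type} [NormedAddCommGroup G] [NormedSpace ℝ G] (f : Pts P → G) :
    Hm P.N → G := ambF (jP P) f

theorem contDiff_ambP {G : Type} [NormedAddCommGroup G] [NormedSpace ℝ G] (f : Pts P → G) :
    ContDiff ℝ ∞ (ambP P f) := contDiff_ambF _ _

theorem ambP_j {G : Type} [NormedAddCommGroup G] [NormedSpace ℝ G] {f : Pts P → G} (X : AnP P n)
    (hf : X.A.Sm f) (x : Pts P) : ambP P f (jP P x) = f x := (emb X).amb_j hf x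

/-- an ambient smooth map which induces the morphism -/
def ambM (μ : Mor P' P) : Hm P'.N → Hm P.N := ambP P' fun x => jP P (μ.map x)

theorem contDiff_ambM (μ : Mor P' P) : ContDiff ℝ ∞ (ambM μ) := contDiff_ambP _

theorem ambM_j (μ : Mor P' P) (x : Pts P') : ambM μ (jP P' x) = jP P (μ.map x) :=
  ambP_j (an P') (sm_comp_hol (μ.holMap (an P') (an P)) (em P).sm) x

theorem smapM (μ : Mor P' P) : SMap (XP P') (XP P) (ambM μ) :=
  (em P').smap (em P) (μ.holMap (an P') (an P))

/-- **the pull-back of classes** -/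
def pullH (μ : Mor P' P) : HP P →ₐ[ℂ] HP P' := H.map (smapM μ)

/-- any smooth ambient map can be used -/
theorem pullH_eq (μ : Mor P' P) {g : Hm P'.N → Hm P.N} (hg : SMap (XP P') (XP P) g)
    (h : ∀ x, g (jP P' x) = jP P (μ.map x)) (a : HP P) : pullH μ a = H.map hg a :=
  H.map_congr' (subP P') _ _ (by rintro _ ⟨x, rfl⟩; rw [h, ambM_j]) a

theorem pullH_congr {μ ν : Mor P' P} (h : μ.map = ν.map) : pullH μ = pullH ν :=
  AlgHom.ext fun a => pullH_eq μ (smapM ν) (fun x => by rw [ambM_j, h]) a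

theorem pullH_comp {L : Type} [Field L] [Algebra ℂ L] {P'' : PModel ℂ L} (μ : Mor P' P)
    (ν : Mor P'' P') (a : HP P) : pullH (μ.comp ν) a = pullH ν (pullH μ a) := by
  rw [pullH_eq _ ((smapM μ).comp (smapM ν)) fun x => by rw [ambM_j, ambM_j, Mor.comp_map]]
  exact (H.map_map _ _ a).symm

theorem pullH_id {μ : Mor P P} (h : ∀ x, μ.map x = x) (a : HP P) : pullH μ a = a := by
  rw [pullH_eq μ (SMap.id _) fun x => by rw [h], H.map_id]

theorem pullH_dg (μ : Mor P' P) {k : ℕ} {a : HP P} (ha : a ∈ dgP P k) : pullH μ a ∈ dgP P' k :=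
  HD_map _ ha

theorem pullH_conj (μ : Mor P' P) (a : HP P) :
    pullH μ (H.conj (XP P) a) = H.conj (XP P') (pullH μ a) := (H.conj_map _ a).symm

theorem pullH_rcl (μ : Mor P' P) {w : Hm P.N → Ext (Hm P.N)} (h : EC (XP P) w) :
    pullH μ (rcl h) = rcl (h.pull (smapM μ)) := (rcl_pull _ h).symm

/-- the pull-back of a form in charts -/
theorem pull_ambM (μ : Mor P' P) {m : ℕ} (X' : AnP P' m) (X : AnP P n) {i : X'.A.ι} {k : X.A.ι}
    {z : Cn m} (hz : z ∈ R273.Map_835.dm X'.A X.A μ.map i k) (w : Hm P.N → Ext (Hm P.N)) :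
    pull ((emb X').par i) (pull (ambM μ) w) z =
      pull (R273.Map_835.rd X'.A X.A μ.map i k) (pull ((emb X).par k) w) z :=
  (emb X').pull_pull (emb X) (μ.holMap X' X) (ambM_j μ)
    (fun _ => (contDiff_ambM μ).differentiable (by simp) _) hz w

end Crest.Agent.X262.Man
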