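import Crest.Agent.X262.Man.Brg
import Crest.Agent.X262.PL.C1
import Crest.Agent.X262.Kah.ClsC

/-!
# Row 262, MAN (helper16), part 9: the Fubini-Study form is a Kaehler form

* `exists_om` : a Hermitian form as `Fib.om g`;
* `kfP X : KF X.A`, `kfP_w` : its class is the hyperplane class;
* `kahC1 : KahC1 PL.c1`, and `typ_th`, `hl_th`, `hr_th`.
-/

set_option autoImplicit false
set_option linter.unusedSectionVars false
set_option linter.style.haveILetI false

open Set Filter Topology Function Module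
open scoped ContDiff ComplexConjugate ComplexOrder Matrix

noncomputable section

namespace Crest.Agent.X262.Man

open Crest.Agent.R208.F Crest.Agent.R208.FI Crest.Agent.R208.CW Crest.Agent.R208.T
open Crest.Agent.R275.Geo (Cn Atl)
open Crest.Agent.R257.PN_835 (HC nsq pm nsq_pos)
open Crest.Agent.X277.Lef Crest.Agent.X277.AN.G1
open Crest.Agent.X262.Kah (KF res0 res0_apply res0_mem toH_res KahC1 KahP typP)
open Crest.Agent.X262.PL (fs ec_fs pj)

variable {n : ℕ}

theorem om_smul (r : ℝ) (g : Matrix (Fin n) (Fin n) ℂ) :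
    Kah.Fib.om (r • g) = (r : ℂ) • Kah.Fib.om g := by
  simp only [Kah.Fib.om, Matrix.smul_apply, Complex.real_smul, mul_smul, ← Finset.smul_sum]
  exact smul_comm _ _ _

/-- a Hermitian form in coordinates -/
theorem exists_om {κ : Type} [Fintype κ] (l : κ → Cn n →L[ℂ] ℂ) {r : ℝ} (hr : 0 < r) :
    ∃ g : Matrix (Fin n) (Fin n) ℂ, ((∀ v, (∀ k, l k v = 0) → v = 0) → g.PosDef) ∧
      (⟨r • herm fun k => (l k).restrictScalars ℝ, 0⟩ : CF (Cn n)) = Kah.Fib.om g := by
  obtain ⟨L, h1, -, h3⟩ := exists_herm_eq l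
  set L' := (L : Cn n →ₗ[ℂ] Cn n).restrictScalars ℝ with hL
  set B := (Kah.Fib.mat L').map conj with hB
  have h4 : Bᴴ = (Kah.Fib.mat L')ᵀ := by
    ext a b
    simp [hB]
  refine ⟨(r / 2) • (Bᴴ * B), fun h => Matrix.PosDef.smul
    (Matrix.PosDef.conjTranspose_mul_self B ?_) (half_pos hr), ?_⟩
  · refine (injective_iff_map_eq_zero B.mulVecLin).2 fun v hv => ?_
    have h5 : L (WithLp.toLp 2 fun a => conj (v a)) = 0 := by
      ext b
      have h6 := congrArg conj (congrFun hv b)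
      rw [Pi.zero_apply, map_zero] at h6
      refine Eq.trans ?_ h6
      refine (lin_apply ((EuclideanSpace.proj b).comp L) _).trans ?_
      simp [hB, Matrix.mulVec, dotProduct, Kah.Fib.mat, hL, Kah.Fib.ep]
    funext a
    simpa using congrArg (fun w : Cn n => conj (w a)) (h _ (h3 _ h5))
  · have h5 := Kah.Fib.pbC_om (L := L') (fun v => L.map_smul _ v) 1
    rw [Matrix.mul_one, ← h4, ← hB, Kah.Fib.om_one, Kah.Fib.omg_eq, pbC_smul] at h5
    rw [om_smul, ← h5, h1, smul_smul]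
    refine Cx.ext ?_ ?_
    · rw [Cx.csmul_re]
      simp
    · rw [Cx.csmul_im]
      simp

/-- the pull-back of the Fubini-Study form by a holomorphic family -/
theorem pull_fs_hol {N : ℕ} {Z : Cn n → HC N} {z : Cn n}
    (hZ : ∀ k, AnalyticAt ℂ (fun w => Z w k) z) (h0 : Z z ≠ 0) :
    ∃ g : Matrix (Fin n) (Fin n) ℂ,
      ((∀ v c, (∀ k, fderiv ℂ (fun w => Z w k) z v = Z z k * c) → v = 0) → g.PosDef) ∧
      (⟨pull (fun w => ofM (pm (Z w))) (fs N) z, 0⟩ : CF (Cn n)) = Kah.Fib.om g := by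
  have h1 : ContDiffAt ℝ ∞ Z z :=
    contDiffAt_pi.2 fun k => ((hZ k).contDiffAt (n := ∞)).restrict_scalars ℝ
  let D : Fin (N + 1) → Cn n →L[ℂ] ℂ := fun k => fderiv ℂ (fun w => Z w k) z
  obtain ⟨g, h2, h3⟩ := exists_om
    (fun k => D k - (Z z k / nsq (Z z)) • ∑ j, conj (Z z j) • D j)
    (mul_pos (inv_pos.2 Real.pi_pos) (inv_pos.2 (nsq_pos h0)))
  refine ⟨g, fun h => h2 fun v hv => h v ((∑ j, conj (Z z j) • D j) v / nsq (Z z)) fun k => ?_, ?_⟩
  · have h4 := hv k
    rw [ContinuousLinearMap.sub_apply, sub_eq_zero, ContinuousLinearMap.smul_apply,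
      smul_eq_mul] at h4
    rw [mul_div_assoc', mul_div_right_comm]
    exact h4
  · have h4 : ∀ k v, pj k (fderiv ℝ Z z v) = D k v := fun k v => by
      have h5 := ((pj k).hasFDerivAt.comp z (h1.differentiableAt (by simp)).hasFDerivAt).unique
        ((hZ k).differentiableAt.hasFDerivAt.restrictScalars ℝ)
      exact congrArg (fun T : Cn n →L[ℝ] ℂ => T v) h5
    rw [← h3, PL.pull_fs h1 h0, PL.d_cn (h1.of_le two_le) h0]
    congr 3
    funext k
    ext v
    simp only [hz_apply, ContinuousLinearMap.comp_apply, h4]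
    simp

variable {F : Type} [Field F] [Algebra ℂ F] {P : PModel ℂ F}

theorem exists_om_fs (X : AnP P n) (α : X.A.ι) (z : Cn n) :
    ∃ g : Matrix (Fin n) (Fin n) ℂ, z ∈ (X.A.e α).target → g.PosDef ∧
      (⟨pull ((emb X).par α) (fs P.N) z, 0⟩ : CF (Cn n)) = Kah.Fib.om g := by
  by_cases hz : z ∈ (X.A.e α).target
  swap
  · exact ⟨0, fun h => absurd h hz⟩
  obtain ⟨x, hx, rfl⟩ : ∃ x ∈ (X.A.e α).source, X.A.e α x = z :=
    ⟨_, (X.A.e α).map_target hz, (X.A.e α).right_inv hz⟩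
  have hi := X.sub α x hx
  obtain ⟨g, h1, h2⟩ := pull_fs_hol
    (Z := fun w j => X.rd α (ev (P.y j / P.y (X.r α))) w) (z := X.A.e α x)
    (fun k => AnP.analyticAt_ev hx (y_mem hi k)) (by
      rw [funext fun j => AnP.rd_self hx (ev (P.y j / P.y (X.r α)))]
      exact ev_y_ne hi)
  refine ⟨g, fun _ => ⟨h1 fun v c h => AnP.eq_zero_of_dv hx hi fun j => ?_, ?_⟩⟩
  · have h3 := h (X.r α)
    have h4 : P.y (X.r α) / P.y (X.r α) = algebraMap ℂ F 1 := by
      rw [div_self (P.y_ne _), map_one]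
    simp only [h4] at h3
    have h5 : c = 0 := by
      rw [AnP.rd_self hx, ev, LP.v_alg, one_mul] at h3
      exact h3.symm.trans (AnP.dv_alg v 1)
    exact (h j).trans (by rw [h5, mul_zero])
  · rw [← h2]
    congr 1
    refine pull_congr ?_
    filter_upwards [(X.A.e α).open_target.mem_nhds hz] with w hw
    exact jP_eq (X.sub α _ ((X.A.e α).map_target hw))

theorem fs_mem : mkF (fs P.N) 0 ∈ Z (XP P) := ec_fs.mem_Z EC.zero

/-- **the Fubini-Study form as a Kaehler form** -/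
def kfP (X : AnP P n) : KF X.A where
  om := res0 (emb X) (mkF (fs P.N) 0) fs_mem.2.1
  g α z := (exists_om_fs X α z).choose
  pos α z hz := ((exists_om_fs X α z).choose_spec hz).1
  eq α z hz := by
    refine (res0_apply _ _ hz).trans (Eq.trans ?_ ((exists_om_fs X α z).choose_spec hz).2)
    exact Cx.ext rfl (map_zero (pb _))
  closed := (res0_mem (emb X) fs_mem).2

theorem kfP_w (X : AnP P n) : (kfP X).w (emb X) = PL.c1P P (X277.BD.Br.oP P) :=
  (toH_res (emb X) fs_mem).trans PL.c1P_oP.symm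

theorem kahP : KahP := fun X => ⟨kfP (an X.P)⟩

/-- **the hyperplane class is a Kaehler class** -/
theorem kahC1 : KahC1 PL.c1 := fun X => ⟨kfP (an X.P), 1, one_pos, by
  rw [Complex.ofReal_one, one_smul]
  exact (kfP_w (an X.P)).symm⟩

variable (Lam : ∀ X : Coh.SV, AddSubgroup (HP X.P))

theorem c1Ty : Kah.C1Ty PL.c1 := (kahC1.typ PL.c1Ax fun _ => ⊤).c1

theorem typ_th : (thOf typP PL.c1 Lam).TYP := kahC1.typ PL.c1Ax Lam

theorem hl_th : (thOf typP PL.c1 Lam).HL := Kah.hl_of Lam kahC1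

theorem hr_th : (thOf typP PL.c1 Lam).HR := Kah.hr_of Lam intBr kahC1

end Crest.Agent.X262.Man
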