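import Crest.Agent.X262.Man.Lin
import Crest.Agent.R208.FH6

/-!
# Row 262, MAN (helper16), part 3: orientation and integration

* `ε.COri o`, `ε.ori` : the complex orientation; `ε.Int om`, `ε.integ : H ε.X →ₗ[ℂ] ℂ`;
* `ε.vol : Measure M`, `ε.den om : M → ℝ`, `Int_eq : ε.Int om = ∫ x, ε.den om x ∂ε.vol`;
* `setInt_chart`, `vol_eq_zero_iff`, `vol_null_of_local` : reading in a chart;
* `setInt_pull`, `Int_pull_of_count` : change of variables along a holomorphic map between
  manifolds of the same dimension, with multiplicity.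
-/

set_option autoImplicit false
set_option linter.unusedSectionVars false
set_option linter.style.haveILetI false

open Set Filter Topology Function Module MeasureTheory MeasureTheory.Measure
open scoped ContDiff

noncomputable section

namespace Crest.Agent.X262.Man

open Crest.Agent.R208.F Crest.Agent.R208.FI Crest.Agent.R208.CW Crest.Agent.R208.T
open Crest.Agent.R275.Geo (Cn RI rc Atl)
open Crest.Agent.R273.Map_835 (HolMap)

variable {n : ℕ}

theorem norm_cL (u : Eu (2 * n)) : ‖cL n u‖ = ‖u‖ := by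
  rw [EuclideanSpace.norm_eq, EuclideanSpace.norm_eq, ← (ix n).sum_comp, Fintype.sum_prod_type]
  congr 1
  refine Finset.sum_congr rfl fun a _ => ?_
  rw [cL_apply, Complex.sq_norm, Complex.normSq_add_mul_I, Fin.sum_univ_two]
  simp

/-- real coordinates as an isometry -/
def cLI (n : ℕ) : Eu (2 * n) ≃ₗᵢ[ℝ] Cn n := { cL0 n with norm_map' := norm_cL }

theorem measurePreserving_cL : MeasurePreserving (cL n) volume volume :=
  (cLI n).measurePreserving

theorem measurableEmbedding_cL : MeasurableEmbedding (cL n) :=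
  (cL n).toHomeomorph.measurableEmbedding

theorem setIntegral_cL {G : Type*} [NormedAddCommGroup G] [NormedSpace ℝ G] (g : Cn n → G)
    (T : Set (Cn n)) : ∫ u in cL n ⁻¹' T, g (cL n u) = ∫ z in T, g z :=
  measurePreserving_cL.setIntegral_preimage_emb measurableEmbedding_cL g T

theorem tsum_ind {ι G : Type*} [AddCommMonoid G] [TopologicalSpace G] {T : Set ι} {m : ℕ}
    (h : T.encard = m) (c : G) : ∑' a, T.indicator (fun _ => c) a = m • c := by
  have h1 : T.Finite := finite_of_encard_eq_coe h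
  rw [tsum_eq_sum (s := h1.toFinset) fun a ha => indicator_of_notMem (by simpa using ha) _,
    Finset.sum_congr rfl fun a ha => indicator_of_mem (by simpa using ha) _, Finset.sum_const]
  congr 1
  rw [h1.encard_eq_coe_toFinset_card] at h
  exact_mod_cast h

variable {M N : Type} [TopologicalSpace M] [TopologicalSpace N]

namespace Emb

variable {A : Atl n M} {E : Type} [NormedAddCommGroup E] [NormedSpace ℝ E] [FiniteDimensional ℝ E]
  (ε : Emb A E) [CompactSpace M] {i k : A.ι} {x : M} {z : Cn n} {o o' om om' : E → Ext E}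

/-- ambient forms which are homogeneous -/
theorem exists_form_deg {p : ℕ} {w : A.ι → Cn n → Ext (Cn n)}
    (hs : ∀ i, ∀ z ∈ (A.e i).target, ContDiffAt ℝ ∞ (w i) z)
    (hc : ∀ i k, ∀ z ∈ A.ov i k, w i z = pull (tr A i k) (w k) z)
    (hd : ∀ i, ∀ z ∈ (A.e i).target, IsDeg p (w i z)) :
    ∃ W : E → Ext E, ContDiff ℝ ∞ W ∧ Hom p W ∧
      ∀ i, ∀ z ∈ (A.e i).target, pull (ε.par i) W z = w i z := by
  obtain ⟨W, h1, h2⟩ := ε.exists_form hs hc
  refine ⟨dp p W, (dplL (E := E) p).contDiff.comp h1, hom_dp p W, fun i z hz => ?_⟩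
  rw [← dp_pull, dp, h2 i z hz, dpl_of_isDeg (hd i z hz)]

/-- closedness is read in the charts -/
theorem cl_iff (h : Sm ε.X om) :
    Cl ε.X om ↔ ∀ i, ∀ z ∈ (A.e i).target, d (pull (ε.par i) om) z = 0 := by
  rw [Cl, resZero_iff, ε.eqv_iff]
  refine forall₃_congr fun i z hz => ?_
  rw [d_pull ((ε.contDiffAt_par hz).of_le two_le) (h.diff (ε.par_mem i z)), pull_zero']
  rfl

theorem pull_d (h : Sm ε.X om) (hz : z ∈ (A.e i).target) :
    pull (ε.par i) (d om) z = d (pull (ε.par i) om) z :=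
  (d_pull ((ε.contDiffAt_par hz).of_le two_le) (h.diff (ε.par_mem i z))).symm

theorem contDiffAt_pull_par (h : Sm ε.X om) (hz : z ∈ (A.e i).target) :
    ContDiffAt ℝ ∞ (pull (ε.par i) om) z :=
  contDiffAt_pull (ε.contDiffAt_par hz) (le_refl _) (h _ (ε.par_mem i z))

/-- the top coefficient in two charts -/
theorem topC_tr (hz : z ∈ A.ov i k) (w : E → Ext E) : topC n (pull (ε.par i) w z) =
    Complex.normSq (LinearMap.det (fderiv ℂ (tr A i k) z : Cn n →ₗ[ℂ] Cn n)) *
      topC n (pull (ε.par k) w (tr A i k z)) := by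
  rw [ε.pull_par_tr hz, topC_pull_hol (analyticAt_tr hz).differentiableAt]

omit [CompactSpace M] in
theorem _root_.Crest.Agent.X262.Man.det_tr_ne (hz : z ∈ A.ov i k) :
    LinearMap.det (fderiv ℂ (tr A i k) z : Cn n →ₗ[ℂ] Cn n) ≠ 0 := by
  have h1 : tr A i k z ∈ A.ov k i :=
    ⟨(A.e k).map_source hz.2, by rw [tr, (A.e k).left_inv hz.2]; exact (A.e i).map_target hz.1⟩
  have h2 : (fun w => tr A k i (tr A i k w)) =ᶠ[𝓝 z] id := by
    filter_upwards [(isOpen_ov A i k).mem_nhds hz] with w hw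
    rw [tr, tr, (A.e k).left_inv hw.2, (A.e i).right_inv hw.1, id]
  have h3 := fderiv_comp z (analyticAt_tr h1).differentiableAt (analyticAt_tr hz).differentiableAt
  rw [show tr A k i ∘ tr A i k = fun w => tr A k i (tr A i k w) from rfl, h2.fderiv_eq,
    fderiv_id] at h3
  have h4 := congrArg (fun L : Cn n →L[ℂ] Cn n => LinearMap.det (L : Cn n →ₗ[ℂ] Cn n)) h3
  simp only [ContinuousLinearMap.coe_id, LinearMap.det_id] at h4
  exact right_ne_zero_of_mul_eq_one ((LinearMap.det_comp _ _).symm.trans h4.symm)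

/-- `o` defines the complex orientation -/
structure COri (o : E → Ext E) : Prop where
  cont : ContinuousOn o ε.X
  pos : ∀ i, ∀ z ∈ (A.e i).target, 0 < topC n (pull (ε.par i) o z)

theorem pos_of_local (h : ∀ x, ∃ k, x ∈ (A.e k).source ∧ 0 < topC n (pull (ε.par k) o (A.e k x)))
    (i : A.ι) (z : Cn n) (hz : z ∈ (A.e i).target) : 0 < topC n (pull (ε.par i) o z) := by
  obtain ⟨k, hk, h1⟩ := h ((A.e i).symm z)
  rw [ε.topC_tr (k := k) ⟨hz, hk⟩]
  exact mul_pos (Complex.normSq_pos.2 (det_tr_ne ⟨hz, hk⟩)) h1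

variable {ε}

theorem COri.sign (h : ε.COri o) {u : Eu (2 * n)} (hu : cL n u ∈ (A.e i).target) :
    Real.sign (top (2 * n) (pull (ε.rpar i) o u)) = 1 := by
  rw [ε.top_rpar hu, Real.sign_of_pos (h.pos i _ hu)]

theorem COri.ori (h : ε.COri o) : Ori (2 * n) ε.X o := by
  refine ⟨h.cont, ε.forall_par.2 fun i z hz => ?_⟩
  obtain ⟨u, rfl⟩ := (cL n).surjective z
  refine (top_ne_zero (finrank_Tan_chart (ε.chart i) hz) (fun w => (ε.chart i).fderiv_mem hz w)
    ((ε.chart i).inj u hz)).1 ?_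
  have h1 := h.pos i _ hz
  rw [← ε.top_rpar hz] at h1
  exact h1.ne'

theorem COri.dens_eq (h : ε.COri o) {u : Eu (2 * n)} (hu : cL n u ∈ (A.e i).target) :
    dens (2 * n) ε.X o om (ε.par i (cL n u)) = topC n (pull (ε.par i) om (cL n u)) /
      R241.AF.jac (LE E ∘L fderiv ℝ (ε.rpar i) u) := by
  have h1 := (ε.chart i).dens_eq (o := o) (om := om) hu
  rwa [h.sign hu, mul_one, ε.top_rpar hu] at h1

theorem COri.dens_congr (h : ε.COri o) (h' : ε.COri o') :
    ∀ y ∈ ε.X, dens (2 * n) ε.X o om y = dens (2 * n) ε.X o' om y := by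
  refine ε.forall_par.2 fun i z hz => ?_
  obtain ⟨u, rfl⟩ := (cL n).surjective z
  rw [h.dens_eq hz, h'.dens_eq hz]

theorem COri.J_congr (h : ε.COri o) (h' : ε.COri o') :
    J (2 * n) ε.X o om = J (2 * n) ε.X o' om := by
  refine setIntegral_congr_fun ε.clo.measurableSet ?_
  rintro _ ⟨y, hy, rfl⟩
  simp only [ContinuousLinearEquiv.symm_apply_apply, h.dens_congr h' y hy]

variable (ε)

theorem exists_cori : ∃ o : E → Ext E, ContDiff ℝ ∞ o ∧ ε.COri o := by
  obtain ⟨g, h1, h2⟩ := exists_of_local (G := Ext E) ε.isClosed_X isOpen_univ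
    (t := fun q => {c | ∀ i, ∀ z ∈ (A.e i).target, ε.par i z = q →
      0 < topC n (pb (fderiv ℝ (ε.par i) z : Cn n →ₗ[ℝ] E) c)})
    (fun q _ => by
      intro a ha b hb s t hs ht hst i z hz hq
      rw [map_add, map_smul, map_smul, map_add, map_smul, map_smul]
      exact (convex_Ioi (0 : ℝ)) (ha i z hz hq) (hb i z hz hq) hs ht hst)
    (by
      rintro _ ⟨⟨x, rfl⟩, -⟩
      obtain ⟨k, hk⟩ := A.cover x
      obtain ⟨O, l, h1, h2, h3, h4, h5⟩ := ε.exists_inv hk
      refine ⟨O, h1.mem_nhds h2, pull l fun _ => om0 n ^ n, fun q hq => ?_, ?_⟩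
      · exact (contDiffAt_pull (h3.contDiffAt (h1.mem_nhds hq)) (le_refl _)
          contDiffAt_const).contDiffWithinAt
      · rintro q hq - i z hz rfl
        have h7 : (fun z => l (ε.par i z)) =ᶠ[𝓝 z] tr A i k := by
          filter_upwards [(ε.contDiffAt_par hz).continuousAt.preimage_mem_nhds (h1.mem_nhds hq)]
            with z hz using (h5 _ hz).2
        have h8 : z ∈ A.ov i k := ⟨hz, (h5 _ hq).1⟩
        have h9 := pull_comp (om := fun _ => om0 n ^ n) (ε.diff_par hz)
          ((h3.contDiffAt (h1.mem_nhds hq)).differentiableAt (by simp))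
        rw [show l ∘ ε.par i = fun z => l (ε.par i z) from rfl, pull_congr h7] at h9
        rw [show pb (fderiv ℝ (ε.par i) z : Cn n →ₗ[ℝ] E) (pull l (fun _ => om0 n ^ n) (ε.par i z))
          = pull (ε.par i) (pull l fun _ => om0 n ^ n) z from rfl, h9,
          topC_pull_hol (analyticAt_tr h8).differentiableAt, topC_om0_pow]
        exact mul_pos (Complex.normSq_pos.2 (det_tr_ne h8)) (Nat.cast_pos.2 n.factorial_pos))
  have h3 : ContDiff ℝ ∞ g := contDiff_iff_contDiffAt.2 fun q => h1 q trivial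
  exact ⟨g, h3, h3.continuous.continuousOn, fun i z hz =>
    h2 _ ⟨ε.par_mem i z, trivial⟩ i z hz rfl⟩

/-- a form which defines the complex orientation -/
def ori : E → Ext E := ε.exists_cori.choose

theorem contDiff_ori : ContDiff ℝ ∞ ε.ori := ε.exists_cori.choose_spec.1

theorem cori : ε.COri ε.ori := ε.exists_cori.choose_spec.2

theorem isOri : Ori (2 * n) ε.X ε.ori := ε.cori.ori

/-- the integral of a real form -/
def Int (om : E → Ext E) : ℝ := J (2 * n) ε.X ε.ori om

/-- the integral of a class -/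
def integ : H ε.X →ₗ[ℂ] ℂ := R208.CW.integ ε.clo ε.isOri

theorem integ_cls {w : E → CF E} (h : w ∈ Z ε.X) :
    ε.integ (cls w h) = ⟨ε.Int fun y => (w y).re, ε.Int fun y => (w y).im⟩ :=
  R208.CW.integ_cls _ _ h

theorem COri.J_eq {ε : Emb A E} (h : ε.COri o) : J (2 * n) ε.X o om = ε.Int om := h.J_congr ε.cori

theorem Int_congr (h : Eqv ε.X om om') : ε.Int om = ε.Int om' := by
  refine J_congr ε.clo fun y hy w hw => ?_
  have key : ∀ e : Ext E, evA E (2 * n) e w =
      evA (Tan ε.X y) (2 * n) (pb (Tan ε.X y).subtype e) fun i => ⟨w i, hw i⟩ :=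
    fun e => by rw [evA_pb]; rfl
  rw [key, key (om' y), R208.T.eqv_iff.1 h y hy]

/-! ### the measure -/

variable [MeasurableSpace M] [BorelSpace M]

theorem measurableEmbedding : MeasurableEmbedding fun x => TE E (ε.j x) :=
  ((TE E).toHomeomorph.isClosedEmbedding.comp ε.isClosedEmbedding).measurableEmbedding

/-- the Riemannian volume of the embedding -/
def vol : Measure M := Measure.comap (fun x => TE E (ε.j x)) μHE[2 * n]

/-- the density of a form with respect to `vol` -/
def den (om : E → Ext E) (x : M) : ℝ := dens (2 * n) ε.X ε.ori om (ε.j x)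

theorem vol_apply (S : Set M) : ε.vol S = μHE[2 * n] (TE E '' (ε.j '' S)) := by
  rw [vol, ε.measurableEmbedding.comap_apply, image_image]

instance : IsFiniteMeasure ε.vol :=
  ⟨by rw [vol_apply, image_univ]; exact ε.clo.measure_lt_top⟩

theorem setInt_eq {G : Type*} [NormedAddCommGroup G] [NormedSpace ℝ G] (g : E → G) (S : Set M) :
    ∫ x in S, g (ε.j x) ∂ε.vol = ∫ y in TE E '' (ε.j '' S), g ((TE E).symm y) ∂μHE[2 * n] := by
  have h1 := ε.measurableEmbedding.integral_map (μ := ε.vol.restrict S)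
    fun y => g ((TE E).symm y)
  simp only [ContinuousLinearEquiv.symm_apply_apply] at h1
  rw [← h1, vol, ε.measurableEmbedding.restrict_comap, ε.measurableEmbedding.map_comap,
    Measure.restrict_restrict ε.measurableEmbedding.measurableSet_range, image_image,
    inter_eq_right.2 (image_subset_range _ _)]

theorem setInt_den (om : E → Ext E) (S : Set M) :
    ∫ x in S, ε.den om x ∂ε.vol = JS (2 * n) ε.X ε.ori om (ε.j '' S) :=
  ε.setInt_eq (dens (2 * n) ε.X ε.ori om) S

theorem Int_eq (om : E → Ext E) : ε.Int om = ∫ x, ε.den om x ∂ε.vol := by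
  rw [← setIntegral_univ, setInt_den, image_univ]
  rfl

theorem continuous_den (h : ContinuousOn om ε.X) : Continuous (ε.den om) :=
  (continuousOn_dens ε.clo ε.isOri h).comp_continuous ε.cont ε.mem

theorem integrable_den (h : ContinuousOn om ε.X) : Integrable (ε.den om) ε.vol :=
  (ε.continuous_den h).integrable_of_hasCompactSupport (HasCompactSupport.of_compactSpace _)

theorem den_smul (g : E → ℝ) (om : E → Ext E) (x : M) :
    ε.den (fun y => g y • om y) x = g (ε.j x) * ε.den om x := dens_fun_smul g _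

/-- the volume element in the chart `i` -/
def rho (i : A.ι) (z : Cn n) : ℝ := R241.AF.jac (LE E ∘L fderiv ℝ (ε.rpar i) ((cL n).symm z))

theorem rho_pos (hz : z ∈ (A.e i).target) : 0 < ε.rho i z :=
  jac_pos_of_injective ((ε.chart i).inj _ (by
    rw [mem_preimage, ContinuousLinearEquiv.apply_symm_apply]; exact hz))

theorem continuousOn_rho (i : A.ι) : ContinuousOn (ε.rho i) (A.e i).target :=
  (continuousOn_jac_chart (ε.chart i)).comp (cL n).symm.continuous.continuousOn fun z hz => by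
    rw [mem_preimage, ContinuousLinearEquiv.apply_symm_apply]; exact hz

theorem den_symm (hz : z ∈ (A.e i).target) (om : E → Ext E) :
    ε.den om ((A.e i).symm z) = topC n (pull (ε.par i) om z) / ε.rho i z := by
  obtain ⟨u, rfl⟩ := (cL n).surjective z
  rw [rho, ContinuousLinearEquiv.symm_apply_apply]
  exact ε.cori.dens_eq hz

theorem den_eq (hx : x ∈ (A.e i).source) (om : E → Ext E) :
    ε.den om x = topC n (pull (ε.par i) om (A.e i x)) / ε.rho i (A.e i x) := by
  rw [← ε.den_symm ((A.e i).map_source hx), (A.e i).left_inv hx]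

omit [CompactSpace M] [MeasurableSpace M] [BorelSpace M] in
theorem image_rpar' (i : A.ι) (T : Set (Cn n)) :
    ε.rpar i '' (cL n ⁻¹' T) = ε.j '' ((A.e i).symm '' T) := by
  rw [image_image, show ε.rpar i = ε.par i ∘ cL n from rfl, image_comp,
    image_preimage_eq _ (cL n).surjective]
  rfl

/-- integrals over a subset of a chart -/
theorem setInt_symm {G : Type*} [NormedAddCommGroup G] [NormedSpace ℝ G] (g : M → G)
    {T : Set (Cn n)} (hT : MeasurableSet T) (hTi : T ⊆ (A.e i).target) :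
    ∫ x in (A.e i).symm '' T, g x ∂ε.vol = ∫ z in T, ε.rho i z • g ((A.e i).symm z) := by
  classical
  have h0 : ∀ x, g x = (fun q => if h : q ∈ ε.X then g h.choose else 0) (ε.j x) := fun x => by
    simp only [dif_pos (ε.mem x)]
    exact congrArg g (ε.inj (ε.mem x).choose_spec).symm
  rw [funext h0, setInt_eq, ← ε.image_rpar', image_image, ← setIntegral_cL]
  have h1 : ∀ u ∈ cL n ⁻¹' T, HasFDerivWithinAt (fun u => TE E (ε.rpar i u))
      (LE E ∘L fderiv ℝ (ε.rpar i) u) (cL n ⁻¹' T) u := fun u hu =>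
    ((TE E).hasFDerivAt.comp u
      ((ε.chart i).differentiableAt (hTi hu)).hasFDerivAt).hasFDerivWithinAt
  have h3 := integral_image_eq_jac (measurableEmbedding_cL.measurable hT) h1
    (fun u hu v hv huv => (ε.chart i).injOn (hTi hu) (hTi hv) ((TE E).injective huv))
    fun y => (fun q => if h : q ∈ ε.X then g h.choose else 0) ((TE E).symm y)
  rw [finrank_euclideanSpace_fin] at h3
  rw [h3]
  simp only [rho, ContinuousLinearEquiv.symm_apply_apply]
  rfl

theorem vol_symm {T : Set (Cn n)} (hT : MeasurableSet T) (hTi : T ⊆ (A.e i).target) :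
    ε.vol ((A.e i).symm '' T) = ∫⁻ z in T, ENNReal.ofReal (ε.rho i z) := by
  rw [vol_apply, ← ε.image_rpar', measure_image_chart (ε.chart i)
    (measurableEmbedding_cL.measurable hT) fun u hu => hTi hu,
    ← measurePreserving_cL.setLIntegral_comp_preimage_emb measurableEmbedding_cL]
  simp only [rho, ContinuousLinearEquiv.symm_apply_apply]

omit [CompactSpace M] in
theorem _root_.Crest.Agent.X262.Man.measurableSet_image_e {S : Set M} (hS : MeasurableSet S)
    (hSi : S ⊆ (A.e i).source) : MeasurableSet (A.e i '' S) := by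
  rw [(A.e i).image_eq_target_inter_inv_preimage hSi]
  have h1 : Measurable ((A.e i).target.restrict (A.e i).symm) :=
    (continuousOn_iff_continuous_restrict.1 (A.e i).continuousOn_symm).measurable
  have h2 := (MeasurableEmbedding.subtype_coe
    (A.e i).open_target.measurableSet).measurableSet_image.2 (h1 hS)
  rwa [show (A.e i).target.restrict (A.e i).symm ⁻¹' S =
    Subtype.val ⁻¹' ((A.e i).symm ⁻¹' S) from rfl, Subtype.image_preimage_val] at h2

omit [CompactSpace M] [MeasurableSpace M] [BorelSpace M] in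
theorem _root_.Crest.Agent.X262.Man.symm_image_e {S : Set M} (hSi : S ⊆ (A.e i).source) :
    (A.e i).symm '' (A.e i '' S) = S := (A.e i).symm_image_image_of_subset_source hSi

/-- **the chart formula** -/
theorem setInt_chart {S : Set M} (hS : MeasurableSet S) (hSi : S ⊆ (A.e i).source)
    (g : M → ℝ) (om : E → Ext E) : ∫ x in S, g x * ε.den om x ∂ε.vol =
      ∫ z in A.e i '' S, g ((A.e i).symm z) * topC n (pull (ε.par i) om z) := by
  have h1 : A.e i '' S ⊆ (A.e i).target := by
    rintro _ ⟨x, hx, rfl⟩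
    exact (A.e i).map_source (hSi hx)
  conv_lhs => rw [← symm_image_e hSi]
  rw [ε.setInt_symm _ (measurableSet_image_e hS hSi) h1]
  refine setIntegral_congr_fun (measurableSet_image_e hS hSi) fun z hz => ?_
  have h2 := (ε.rho_pos (h1 hz)).ne'
  simp only [ε.den_symm (h1 hz), smul_eq_mul]
  field_simp

theorem setInt_chart' {S : Set M} (hS : MeasurableSet S) (hSi : S ⊆ (A.e i).source)
    (om : E → Ext E) :
    ∫ x in S, ε.den om x ∂ε.vol = ∫ z in A.e i '' S, topC n (pull (ε.par i) om z) := by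
  simpa only [one_mul] using ε.setInt_chart hS hSi (fun _ => 1) om

theorem vol_symm_null {T : Set (Cn n)} (hTi : T ⊆ (A.e i).target) (h : volume T = 0) :
    ε.vol ((A.e i).symm '' T) = 0 := by
  obtain ⟨T', h1, h2, h3⟩ := exists_measurable_superset_of_null h
  refine measure_mono_null (image_mono (subset_inter h1 hTi)) ?_
  rw [ε.vol_symm (h2.inter (A.e i).open_target.measurableSet) inter_subset_right]
  exact setLIntegral_measure_zero _ _ (measure_mono_null inter_subset_left h3)

include ε in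
theorem secondCountable : SecondCountableTopology M :=
  ε.isClosedEmbedding.isEmbedding.secondCountableTopology

/-- a set which is locally null in charts is null -/
theorem vol_null_of_local {S : Set M} (h : ∀ x ∈ S, ∃ i, x ∈ (A.e i).source ∧
    ∃ W ∈ 𝓝 (A.e i x), volume {z ∈ W | z ∈ (A.e i).target ∧ (A.e i).symm z ∈ S} = 0) :
    ε.vol S = 0 := by
  haveI := ε.secondCountable
  refine measure_null_of_locally_null _ fun x hx => ?_
  obtain ⟨i, hi, W, hW, h1⟩ := h x hx
  refine ⟨S ∩ ((A.e i).source ∩ A.e i ⁻¹' W), inter_mem_nhdsWithin _ (inter_mem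
    ((A.e i).open_source.mem_nhds hi) ((A.e i).continuousAt hi hW)), ?_⟩
  refine measure_mono_null ?_ (ε.vol_symm_null (i := i) (fun z hz => hz.2.1) h1)
  rintro y ⟨h2, h3, h4⟩
  exact ⟨A.e i y, ⟨h4, (A.e i).map_source h3, by rwa [(A.e i).left_inv h3]⟩, (A.e i).left_inv h3⟩

/-- null sets are null in the charts -/
theorem volume_null_of_vol {S : Set M} (h : ε.vol S = 0) (i : A.ι) :
    volume {z ∈ (A.e i).target | (A.e i).symm z ∈ S} = 0 := by
  obtain ⟨S', h1, h2, h3⟩ := exists_measurable_superset_of_null h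
  have h4 := measurableSet_image_e (i := i) (h2.inter (A.e i).open_source.measurableSet)
    inter_subset_right
  have h5 : A.e i '' (S' ∩ (A.e i).source) ⊆ (A.e i).target := by
    rintro _ ⟨x, hx, rfl⟩
    exact (A.e i).map_source hx.2
  have h6 := ε.vol_symm h4 h5
  rw [symm_image_e inter_subset_right,
    measure_mono_null inter_subset_left h3, eq_comm,
    lintegral_eq_zero_iff' (((ε.continuousOn_rho i).mono h5).aemeasurable h4).ennreal_ofReal] at h6
  have h7 : ∀ᵐ z ∂(volume.restrict (A.e i '' (S' ∩ (A.e i).source))), False := by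
    filter_upwards [h6, ae_restrict_mem h4] with z hz hz'
    exact absurd (ε.rho_pos (h5 hz')) (not_lt.2 (ENNReal.ofReal_eq_zero.1 hz))
  rw [ae_iff] at h7
  simp only [not_false_eq_true, setOf_true, Measure.restrict_apply_univ] at h7
  refine measure_mono_null (fun z hz => ?_) h7
  exact ⟨_, ⟨h1 hz.2, (A.e i).map_target hz.1⟩, (A.e i).right_inv hz.1⟩

theorem vol_eq_zero_iff {S : Set M} :
    ε.vol S = 0 ↔ ∀ i, volume {z ∈ (A.e i).target | (A.e i).symm z ∈ S} = 0 := by
  refine ⟨ε.volume_null_of_vol, fun h => ε.vol_null_of_local fun x _ => ?_⟩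
  obtain ⟨i, hi⟩ := A.cover x
  exact ⟨i, hi, univ, univ_mem, by simpa using h i⟩

instance : IsOpenPosMeasure ε.vol := ⟨fun U hU hne => by
  rw [vol_apply, ← ε.inter_op]
  refine (ε.clo.measure_pos (ε.isOpen_op hU) ?_).ne'
  rw [ε.inter_op]
  exact hne.image _⟩

theorem Int_nonneg (h : ∀ i, ∀ z ∈ (A.e i).target, 0 ≤ topC n (pull (ε.par i) om z)) :
    0 ≤ ε.Int om := by
  rw [Int_eq]
  refine integral_nonneg fun x => ?_
  obtain ⟨i, hi⟩ := A.cover x
  have h1 := (A.e i).map_source hi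
  rw [ε.den_eq hi]
  exact div_nonneg (h i _ h1) (ε.rho_pos h1).le

theorem Int_pos (hc : ContinuousOn om ε.X)
    (h : ∀ i, ∀ z ∈ (A.e i).target, 0 ≤ topC n (pull (ε.par i) om z))
    (h' : ∃ i, ∃ z ∈ (A.e i).target, topC n (pull (ε.par i) om z) ≠ 0) : 0 < ε.Int om := by
  obtain ⟨k, z, hz, h1⟩ := h'
  rw [Int_eq]
  refine (ε.continuous_den hc).integral_pos_of_hasCompactSupport_nonneg_nonzero
    (HasCompactSupport.of_compactSpace _) (fun x => ?_) (x := (A.e k).symm z) ?_
  · obtain ⟨i, hi⟩ := A.cover x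
    have h1 := (A.e i).map_source hi
    rw [ε.den_eq hi]
    exact div_nonneg (h i _ h1) (ε.rho_pos h1).le
  · rw [ε.den_symm hz]
    exact div_ne_zero h1 (ε.rho_pos hz).ne'

/-! ### change of variables -/

variable {B : Atl n N} {E' : Type} [NormedAddCommGroup E'] [NormedSpace ℝ E']
  [FiniteDimensional ℝ E'] (ε' : Emb B E') [CompactSpace N] [MeasurableSpace N] [BorelSpace N]
  {p : M → N} {g : E → E'}

theorem setInt_pull (hp : HolMap A B p) (hg : ∀ y, g (ε.j y) = ε'.j (p y))
    (hd : ∀ y, DifferentiableAt ℝ g (ε.j y)) {S : Set M} (hS : MeasurableSet S)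
    (hSi : S ⊆ (A.e i).source) (hinj : InjOn p S) (w : E' → Ext E') :
    ∫ x in S, ε.den (pull g w) x ∂ε.vol = ∫ y in p '' S, ε'.den w y ∂ε'.vol := by
  have h1 : A.e i '' S ⊆ (A.e i).target := by
    rintro _ ⟨x, hx, rfl⟩
    exact (A.e i).map_source (hSi hx)
  have h2 := measurableEmbedding_cL.measurable (measurableSet_image_e hS hSi)
  have h3 : ∀ u ∈ cL n ⁻¹' (A.e i '' S), DifferentiableAt ℝ (g ∘ ε.rpar i) u := fun u hu =>
    (hd _).comp u ((ε.chart i).differentiableAt (h1 hu))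
  have h4 : ∀ u, (g ∘ ε.rpar i) u ∈ ε'.X := fun u => ⟨_, (hg _).symm⟩
  have h5 := integral_param (X := ε'.X) (o := ε'.ori) (om := w) h2 h3
    (fun u hu v hv huv => by
      obtain ⟨x, hx, h6⟩ := hu
      obtain ⟨y, hy, h7⟩ := hv
      rw [comp_apply, comp_apply, rpar, rpar, ← h6, ← h7, ε.par_e (hSi hx), ε.par_e (hSi hy), hg,
        hg] at huv
      exact (cL n).injective (by rw [← h6, ← h7, hinj hx hy (ε'.inj huv)]))
    (fun u _ => ε'.clo.finrank_Tan (h4 u))
    fun u hu v => fderiv_mem_Tan (h3 u hu) (Eventually.of_forall h4) v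
  rw [image_comp, image_rpar', symm_image_e hSi, image_image g,
    funext hg, ← image_image ε'.j] at h5
  rw [ε'.setInt_den, JS, h5, ε.setInt_chart' hS hSi, ← setIntegral_cL]
  refine setIntegral_congr_fun h2 fun u hu => ?_
  obtain ⟨k, hk⟩ := B.cover (p ((A.e i).symm (cL n u)))
  have h6 : cL n u ∈ R273.Map_835.dm A B p i k := ⟨h1 hu, hk⟩
  have h7 : ∀ c : E' → Ext E', top (2 * n) (pull (g ∘ ε.rpar i) c u) =
      Complex.normSq (LinearMap.det
        (fderiv ℂ (R273.Map_835.rd A B p i k) (cL n u) : Cn n →ₗ[ℂ] Cn n)) *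
      topC n (pull (ε'.par k) c (R273.Map_835.rd A B p i k (cL n u))) := fun c => by
    rw [← pull_comp ((ε.chart i).differentiableAt (h1 hu)) (hd _), ε.top_rpar (h1 hu),
      ε.pull_pull ε' hp hg hd h6, topC_pull_hol (hp.diffAt h6)]
  simp only [h7, ε.pull_pull ε' hp hg hd h6, topC_pull_hol (hp.diffAt h6)]
  rcases (Complex.normSq_nonneg (LinearMap.det
    (fderiv ℂ (R273.Map_835.rd A B p i k) (cL n u) : Cn n →ₗ[ℂ] Cn n))).eq_or_lt with h | h
  · rw [← h, zero_mul, zero_mul]
  · have h8 : R273.Map_835.rd A B p i k (cL n u) ∈ (B.e k).target := (B.e k).map_source hk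
    rw [Real.sign_of_pos (mul_pos h (ε'.cori.pos k _ h8)), mul_one]

/-- **change of variables with multiplicity** -/
theorem setInt_pull_of_count (hp : HolMap A B p) (hg : ∀ y, g (ε.j y) = ε'.j (p y))
    (hd : ∀ y, ContDiffAt ℝ 1 g (ε.j y)) {U : Set M} (hU : MeasurableSet U)
    (hinj : ∀ x ∈ U, ∃ W ∈ 𝓝 x, InjOn p (U ∩ W)) {m : ℕ}
    (hm : ∀ᵐ y ∂ε'.vol, (U ∩ p ⁻¹' {y}).encard = m) {w : E' → Ext E'}
    (hw : ContinuousOn w ε'.X) : ∫ x in U, ε.den (pull g w) x ∂ε.vol = m * ε'.Int w := by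
  classical
  haveI := ε.secondCountable
  haveI := ε'.secondCountable
  haveI : T2Space N := ε'.isClosedEmbedding.isEmbedding.t2Space
  haveI : T2Space M := ε.isClosedEmbedding.isEmbedding.t2Space
  have hd' : ∀ y, DifferentiableAt ℝ g (ε.j y) := fun y => (hd y).differentiableAt (by simp)
  have h0 : ∀ x ∈ U, ∃ W : Set M, IsOpen W ∧ x ∈ W ∧ InjOn p (U ∩ W) ∧ ∃ i, W ⊆ (A.e i).source := by
    intro x hx
    obtain ⟨W, hW, h1⟩ := hinj x hx
    obtain ⟨i, hi⟩ := A.cover x
    exact ⟨interior W ∩ (A.e i).source, isOpen_interior.inter (A.e i).open_source,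
      ⟨mem_interior_iff_mem_nhds.2 hW, hi⟩,
      h1.mono (inter_subset_inter_right _ (inter_subset_left.trans interior_subset)),
      i, inter_subset_right⟩
  choose! W hWo hWx hWi hWc using h0
  obtain ⟨t, ht, htc, htU⟩ := TopologicalSpace.countable_cover_nhdsWithin (f := W) (s := U)
    fun x hx => mem_nhdsWithin_of_mem_nhds ((hWo x hx).mem_nhds (hWx x hx))
  haveI : Countable t := htc.to_subtype
  haveI : Encodable t := Encodable.ofCountable t
  -- a disjoint decomposition
  obtain ⟨S, hS1, hS2, hS3, hS4⟩ : ∃ S : t → Set M, (∀ a, MeasurableSet (S a)) ∧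
      (∀ a, S a ⊆ U ∩ W a) ∧ Pairwise (Disjoint on S) ∧ ⋃ a, S a = U := by
    letI : LinearOrder t := LinearOrder.lift' Encodable.encode Encodable.encode_injective
    have hwf : WellFounded ((· < ·) : t → t → Prop) :=
      InvImage.wf (Encodable.encode : t → ℕ) wellFounded_lt
    refine ⟨fun a => U ∩ W a ∩ ⋂ b, ⋂ _ : b < a, (W b)ᶜ, fun a => ?_, fun a => inter_subset_left,
      ?_, ?_⟩
    · exact (hU.inter (hWo _ (ht a.2)).measurableSet).inter (MeasurableSet.iInter fun b =>
        MeasurableSet.iInter fun _ => (hWo _ (ht b.2)).measurableSet.compl)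
    · refine (pairwise_disjoint_on _).2 fun a b hab => disjoint_left.2 fun x h1 h2 => ?_
      exact mem_iInter₂.1 h2.2 a hab h1.1.2
    · refine (iUnion_subset fun a => inter_subset_left.trans inter_subset_left).antisymm
        fun x hx => ?_
      obtain ⟨a, ha, h1⟩ := mem_iUnion₂.1 (htU hx)
      obtain ⟨b, hb, h2⟩ := hwf.has_min {b : t | x ∈ W b} ⟨⟨a, ha⟩, h1⟩
      exact mem_iUnion.2 ⟨b, ⟨hx, hb⟩, mem_iInter₂.2 fun c hc h3 => h2 c h3 hc⟩
  have hi : ∀ a, InjOn p (S a) := fun a => (hWi _ (ht a.2)).mono (hS2 a)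
  haveI : PolishSpace M := ε.isClosedEmbedding.polishSpace
  have hpm : ∀ a, MeasurableSet (p '' S a) := fun a =>
    (hS1 a).image_of_continuousOn_injOn hp.1.continuousOn (hi a)
  have hc : ContinuousOn (pull g w) ε.X :=
    continuousOn_pull (ε.forall_X.2 fun x => (hd x).continuousAt.continuousWithinAt)
      (ε.forall_X.2 fun x =>
        ((hd x).fderiv_right (m := 0) (by norm_num)).continuousAt.continuousWithinAt)
      (by rintro _ ⟨x, rfl⟩; exact ⟨_, (hg x).symm⟩) hw
  have h1 : ∀ a, ∫ x in S a, ε.den (pull g w) x ∂ε.vol =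
      ∫ y, (p '' S a).indicator (ε'.den w) y ∂ε'.vol := fun a => by
    obtain ⟨i, hi'⟩ := hWc _ (ht a.2)
    rw [ε.setInt_pull ε' hp hg hd' (hS1 a) ((hS2 a).trans (inter_subset_right.trans hi')) (hi a),
      integral_indicator (hpm a)]
  have h2 : ∀ y, (U ∩ p ⁻¹' {y}).encard = m → {a | y ∈ p '' S a}.encard = m := by
    intro y hy
    have h3 : ∀ x ∈ U, ∃ a, x ∈ S a := fun x hx => mem_iUnion.1 (hS4.symm ▸ hx)
    rcases U.eq_empty_or_nonempty with rfl | ⟨x0, hx0⟩
    · rw [empty_inter] at hy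
      rw [← hy, encard_empty, encard_eq_zero, eq_empty_iff_forall_notMem]
      rintro a ⟨x, hx, -⟩
      exact (hS2 a hx).1
    haveI : Nonempty t := ⟨(h3 x0 hx0).choose⟩
    choose! c hc using h3
    have h4 : ∀ a, ∀ x ∈ S a, c x = a := fun a x hx => by
      by_contra h
      exact disjoint_left.1 (hS3 h) (hc x (hS2 a hx).1) hx
    rw [← hy, ← InjOn.encard_image (f := c) fun x hx x' hx' h =>
      hi _ (hc x hx.1) (h ▸ hc x' hx'.1) (hx.2.trans hx'.2.symm)]
    congr 1
    ext a
    constructor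
    · rintro ⟨x, hx, rfl⟩
      exact ⟨x, ⟨(hS2 a hx).1, rfl⟩, h4 a x hx⟩
    · rintro ⟨x, hx, rfl⟩
      exact ⟨x, hc x hx.1, hx.2⟩
  have h5 := ε'.integrable_den hw
  have h6 : ∀ a, AEStronglyMeasurable ((p '' S a).indicator (ε'.den w)) ε'.vol := fun a =>
    h5.1.indicator (hpm a)
  have h7 : ∑' a, ∫⁻ y, ‖(p '' S a).indicator (ε'.den w) y‖ₑ ∂ε'.vol ≠ ⊤ := by
    rw [← lintegral_tsum fun a => (h6 a).enorm,
      lintegral_congr_ae (g := fun y => (m : ENNReal) * ‖ε'.den w y‖ₑ), lintegral_const_mul'' _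
        h5.1.enorm]
    · exact ENNReal.mul_ne_top (ENNReal.natCast_ne_top m) h5.2.ne
    · filter_upwards [hm] with y hy
      rw [← nsmul_eq_mul, ← tsum_ind (h2 y hy)]
      refine tsum_congr fun a => ?_
      by_cases h : y ∈ p '' S a
      · rw [indicator_of_mem h, indicator_of_mem (s := {a | y ∈ p '' S a}) h]
      · rw [indicator_of_notMem h, indicator_of_notMem (s := {a | y ∈ p '' S a}) h, enorm_zero]
  rw [← hS4, integral_iUnion hS1 hS3 (ε.integrable_den hc).integrableOn, tsum_congr h1,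
    ← integral_tsum h6 h7, ε'.Int_eq, ← integral_const_mul]
  refine integral_congr_ae ?_
  filter_upwards [hm] with y hy
  rw [← nsmul_eq_mul, ← tsum_ind (h2 y hy)]
  refine tsum_congr fun a => ?_
  by_cases h : y ∈ p '' S a
  · rw [indicator_of_mem h, indicator_of_mem (s := {a | y ∈ p '' S a}) h]
  · rw [indicator_of_notMem h, indicator_of_notMem (s := {a | y ∈ p '' S a}) h]

/-- **the degree formula**, analytic part -/
theorem Int_pull_of_count (hp : HolMap A B p) (hg : ∀ y, g (ε.j y) = ε'.j (p y))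
    (hd : ∀ y, ContDiffAt ℝ 1 g (ε.j y)) {U : Set M} (hU : MeasurableSet U) (hU0 : ε.vol Uᶜ = 0)
    (hinj : ∀ x ∈ U, ∃ W ∈ 𝓝 x, InjOn p (U ∩ W)) {m : ℕ}
    (hm : ∀ᵐ y ∂ε'.vol, (U ∩ p ⁻¹' {y}).encard = m) {w : E' → Ext E'}
    (hw : ContinuousOn w ε'.X) : ε.Int (pull g w) = m * ε'.Int w := by
  rw [← ε.setInt_pull_of_count ε' hp hg hd hU hinj hm hw, ε.Int_eq,
    Measure.restrict_eq_self_of_ae_mem hU0]

theorem integ_map_of_count (hp : HolMap A B p) (hg : ∀ y, g (ε.j y) = ε'.j (p y))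
    (hs : SMap ε.X ε'.X g) {U : Set M} (hU : MeasurableSet U) (hU0 : ε.vol Uᶜ = 0)
    (hinj : ∀ x ∈ U, ∃ W ∈ 𝓝 x, InjOn p (U ∩ W)) {m : ℕ}
    (hm : ∀ᵐ y ∂ε'.vol, (U ∩ p ⁻¹' {y}).encard = m) (a : H ε'.X) :
    ε.integ (H.map hs a) = m * ε'.integ a := by
  obtain ⟨w, hw, rfl⟩ := H.exists_rep a
  have hd : ∀ y, ContDiffAt ℝ 1 g (ε.j y) := fun y =>
    (hs.smooth _ (ε.mem y)).of_le (by exact_mod_cast le_top)
  have h1 := ε.Int_pull_of_count ε' hp hg hd hU hU0 hinj hm hw.2.1.cont_re
  have h2 := ε.Int_pull_of_count ε' hp hg hd hU hU0 hinj hm hw.2.1.cont_im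
  have h3 : ∀ a b : ℝ, (⟨m * a, m * b⟩ : ℂ) = m * ⟨a, b⟩ := fun a b => by
    refine Complex.ext ?_ ?_ <;> simp
  rw [H.map_cls, integ_cls, integ_cls, ← h3, ← h1, ← h2]
  rfl

end Emb

end Crest.Agent.X262.Man
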