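import Crest.Agent.X262.Man.Emb
import Crest.Agent.R208.T2a
import Crest.Agent.R257.PN_835

/-!
# Row 262, MAN (helper16), part 2: pointwise algebra

* `topC_pb`, `topC_pb_hol`, `topC_pull_hol` : change of variables for the top coefficient;
* `sq l = Re l ∧ Im l`, `herm l = ∑ sq (l k)`, `om0 n` the standard Kähler form;
* `topC_om0_pow`, `topC_herm_pow`, `topC_herm_pos`;
* `dz l` : a complex valued covector as a complex form, `dC_fun`;
* `sf_pm` : `tr (Q dQ dQ)` for the projector `Q = Z Z* / |Z|²`.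
-/

set_option autoImplicit false
set_option linter.unusedSectionVars false
set_option linter.style.haveILetI false
set_option linter.unusedSimpArgs false

open Set Filter Topology Function Module
open scoped ContDiff ComplexConjugate ComplexOrder Matrix

noncomputable section

namespace Crest.Agent.X262.Man

open Crest.Agent.R208.F Crest.Agent.R208.FI Crest.Agent.R208.CW Crest.Agent.R208.T
open Crest.Agent.R275.Geo (Cn RI rc Atl)
open Crest.Agent.R257.PN_835 (HC nsq pm pm_apply nsq_pos)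

variable {n : ℕ}

/-! ### the top coefficient -/

theorem topC_pb (L : Cn n →ₗ[ℝ] Cn n) (c : Ext (Cn n)) :
    topC n (pb L c) = LinearMap.det L * topC n c := by
  have h1 : L ∘ₗ ((cL n : Eu (2 * n) →L[ℝ] Cn n) : Eu (2 * n) →ₗ[ℝ] Cn n) =
      ((cL n : Eu (2 * n) →L[ℝ] Cn n) : Eu (2 * n) →ₗ[ℝ] Cn n) ∘ₗ
        (((cL0 n).symm : Cn n →ₗ[ℝ] Eu (2 * n)) ∘ₗ L ∘ₗ ((cL0 n).symm.symm : Eu (2 * n) →ₗ[ℝ] Cn n)) := by
    ext1 u
    exact ((cL0 n).apply_symm_apply _).symm
  rw [topC_apply, pb_comp, h1, ← pb_comp, top_pb_det, LinearMap.det_conj, topC_apply]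

theorem topC_pb_hol (L : Cn n →ₗ[ℂ] Cn n) (c : Ext (Cn n)) :
    topC n (pb (L.restrictScalars ℝ) c) = Complex.normSq (LinearMap.det L) * topC n c := by
  rw [topC_pb, LinearMap.det_restrictScalars, Algebra.norm_complex_apply]

theorem topC_pull_hol {f : Cn n → Cn n} {z : Cn n} (hf : DifferentiableAt ℂ f z)
    (w : Cn n → Ext (Cn n)) : topC n (pull f w z) =
      Complex.normSq (LinearMap.det (fderiv ℂ f z : Cn n →ₗ[ℂ] Cn n)) * topC n (w (f z)) := by
  rw [pull, hf.fderiv_restrictScalars ℝ, ← topC_pb_hol]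
  rfl

/-! ### Hermitian forms -/

section herm

variable {V V' : Type} [NormedAddCommGroup V] [NormedSpace ℝ V] [FiniteDimensional ℝ V]
  [NormedAddCommGroup V'] [NormedSpace ℝ V'] [FiniteDimensional ℝ V']

/-- real part of a complex valued covector -/
def reD (l : V →L[ℝ] ℂ) : Dual ℝ V := Complex.reLm ∘ₗ (l : V →ₗ[ℝ] ℂ)

/-- imaginary part of a complex valued covector -/
def imD (l : V →L[ℝ] ℂ) : Dual ℝ V := Complex.imLm ∘ₗ (l : V →ₗ[ℝ] ℂ)

@[simp] theorem reD_apply (l : V →L[ℝ] ℂ) (v : V) : reD l v = (l v).re := rfl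

@[simp] theorem imD_apply (l : V →L[ℝ] ℂ) (v : V) : imD l v = (l v).im := rfl

/-- `Re l ∧ Im l = (i/2) l ∧ l̄` -/
def sq (l : V →L[ℝ] ℂ) : Ext V := io (reD l) * io (imD l)

theorem sq_eq (l : V →L[ℝ] ℂ) : sq l = ExteriorAlgebra.ιMulti ℝ 2 ![reD l, imD l] := by
  simp [sq, ExteriorAlgebra.ιMulti_apply]

theorem isDeg_sq (l : V →L[ℝ] ℂ) : IsDeg 2 (sq l) := by
  rw [sq_eq]
  exact IsDeg.iMulti _

theorem evA_sq (l : V →L[ℝ] ℂ) (v : Fin 2 → V) :
    evA V 2 (sq l) v = (conj (l (v 0)) * l (v 1)).im := by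
  rw [sq_eq, evA_iMulti, Matrix.det_fin_two]
  simp
  ring

theorem inv_sq (l : V →L[ℝ] ℂ) : inv (sq l) = sq l := by
  rw [sq, map_mul, inv_io, inv_io, neg_mul_neg]

theorem sq_mul_self (l : V →L[ℝ] ℂ) : sq l * sq l = 0 := by
  have h : sq l * io (reD l) = 0 := by
    rw [even_comm (inv_sq l), sq, ← mul_assoc, io_sq, zero_mul]
  conv_lhs => rw [sq, ← mul_assoc, ← sq, h, zero_mul]

theorem pb_sq (L : V' →L[ℝ] V) (l : V →L[ℝ] ℂ) : pb (L : V' →ₗ[ℝ] V) (sq l) = sq (l.comp L) := by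
  rw [sq, map_mul, pb_io, pb_io]
  rfl

theorem sq_smul (r : ℝ) (l : V →L[ℝ] ℂ) : sq (r • l) = r ^ 2 • sq l := by
  have h1 : reD (r • l) = r • reD l := by
    ext v
    simp
  have h2 : imD (r • l) = r • imD l := by
    ext v
    simp
  rw [sq, h1, h2, map_smul, map_smul, smul_mul_smul_comm, ← pow_two, sq]

variable {κ κ' : Type} [Fintype κ] [Fintype κ']

/-- the real two-form of a family of complex valued covectors -/
def herm (l : κ → V →L[ℝ] ℂ) : Ext V := ∑ k, sq (l k)

theorem isDeg_herm (l : κ → V →L[ℝ] ℂ) : IsDeg 2 (herm l) := IsDeg.sum _ fun _ _ => isDeg_sq _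

theorem evA_herm (l : κ → V →L[ℝ] ℂ) (v : Fin 2 → V) :
    evA V 2 (herm l) v = (∑ k, conj (l k (v 0)) * l k (v 1)).im := by
  let T : Ext V →+ ℝ := AddMonoidHom.mk' (fun c => evA V 2 c v) fun a b => by
    rw [map_add, AlternatingMap.add_apply]
  rw [herm, Complex.im_sum]
  exact (map_sum T _ _).trans (Finset.sum_congr rfl fun k _ => evA_sq _ _)

theorem pb_herm (L : V' →L[ℝ] V) (l : κ → V →L[ℝ] ℂ) :
    pb (L : V' →ₗ[ℝ] V) (herm l) = herm fun k => (l k).comp L := by
  rw [herm, map_sum]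
  exact Finset.sum_congr rfl fun k _ => pb_sq _ _

theorem herm_smul (r : ℝ) (l : κ → V →L[ℝ] ℂ) : herm (fun k => r • l k) = r ^ 2 • herm l := by
  rw [herm, herm, Finset.smul_sum]
  exact Finset.sum_congr rfl fun k _ => sq_smul _ _

theorem ext_deg {p : ℕ} {a b : Ext V} (ha : IsDeg p a) (hb : IsDeg p b)
    (h : ∀ v, evA V p a v = evA V p b v) : a = b := by
  refine ext_evA fun q => ?_
  by_cases hq : q = p
  · subst hq
    exact AlternatingMap.ext h
  · rw [ha q hq, hb q hq]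

theorem herm_congr {l : κ → V →L[ℝ] ℂ} {l' : κ' → V →L[ℝ] ℂ}
    (h : ∀ v w, ∑ k, conj (l k v) * l k w = ∑ k, conj (l' k v) * l' k w) : herm l = herm l' :=
  ext_deg (isDeg_herm l) (isDeg_herm l') fun v => by rw [evA_herm, evA_herm, h]

end herm

/-- powers of a sum of central elements of square zero -/
theorem sum_pow_length {R : Type*} [Ring R] : ∀ (l : List R), (∀ u ∈ l, ∀ b, u * b = b * u) →
    (∀ u ∈ l, u * u = 0) →
    l.sum ^ l.length = l.length.factorial • l.prod ∧ l.sum ^ (l.length + 1) = 0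
  | [], _, _ => by simp
  | u :: l, hc, h0 => by
    obtain ⟨h1, h2⟩ := sum_pow_length l (fun a ha => hc a (List.mem_cons_of_mem _ ha))
      fun a ha => h0 a (List.mem_cons_of_mem _ ha)
    have hu := hc u List.mem_cons_self
    have hu0 := h0 u List.mem_cons_self
    have key : ∀ m : ℕ, (u + l.sum) ^ (m + 1) = l.sum ^ (m + 1) + (m + 1) • (u * l.sum ^ m) := by
      intro m
      induction m with
      | zero => simp [add_comm]
      | succ m ih =>
        rw [pow_succ', ih, add_mul, mul_add, mul_add, mul_smul_comm, mul_smul_comm, ← mul_assoc,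
          hu0, zero_mul, smul_zero, add_zero, ← mul_assoc, ← hu, mul_assoc, ← pow_succ',
          ← pow_succ', succ_nsmul _ (m + 1)]
        abel
    rw [List.sum_cons, List.length_cons, List.prod_cons, key, key, h2, zero_add, pow_succ _ (_ + 1),
      h2, h1, mul_zero, zero_mul, smul_zero, add_zero, mul_smul_comm, smul_smul,
      Nat.factorial_succ]
    exact ⟨rfl, rfl⟩

theorem prod_ofFn_two {R : Type*} [Monoid R] (g : ℕ → R) : ∀ n : ℕ,
    (List.ofFn fun k : Fin (2 * n) => g k).prod =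
      (List.ofFn fun a : Fin n => g (2 * a) * g (2 * a + 1)).prod
  | 0 => by simp
  | n + 1 => by
    have h := prod_ofFn_two g n
    change (List.ofFn fun k : Fin (2 * n + 1 + 1) => g k).prod = _
    rw [List.ofFn_succ_last, List.ofFn_succ_last, List.ofFn_succ_last, List.prod_append,
      List.prod_append, List.prod_append]
    simp only [Fin.val_castSucc, Fin.val_last, List.prod_singleton]
    rw [h, mul_assoc]

/-- the coordinate `z a` -/
def zc (a : Fin n) : Cn n →L[ℝ] ℂ :=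
  (EuclideanSpace.proj a : Cn n →L[ℂ] ℂ).restrictScalars ℝ

@[simp] theorem zc_apply (a : Fin n) (v : Cn n) : zc a v = v a := rfl

/-- the standard Kähler form `∑ dx ∧ dy` -/
def om0 (n : ℕ) : Ext (Cn n) := herm (zc (n := n))

theorem topC_prod : topC n (List.ofFn fun a : Fin n => sq (zc a)).prod = 1 := by
  classical
  rw [topC_apply, ← top_vol (2 * n), vol, ExteriorAlgebra.ιMulti_apply, map_list_prod,
    List.map_ofFn]
  congr 1
  let g : ℕ → Ext (Eu (2 * n)) := fun k =>
    if h : k < 2 * n then io ((sb (2 * n)).coord ⟨k, h⟩) else 1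
  have h1 : (fun k : Fin (2 * n) => ExteriorAlgebra.ι ℝ ((sb (2 * n)).coord k)) =
      fun k : Fin (2 * n) => g k := funext fun k => by simp only [g, dif_pos k.2]
  rw [h1, prod_ofFn_two]
  congr 2
  funext a
  have ha := a.2
  have h2 : g (2 * a) = io ((sb (2 * n)).coord (ix n (a, 0))) := by
    rw [show g (2 * a) = _ from dif_pos (by omega)]
    congr 2
    exact Fin.ext (by simp [ix_val])
  have h3 : g (2 * a + 1) = io ((sb (2 * n)).coord (ix n (a, 1))) := by
    rw [show g (2 * a + 1) = _ from dif_pos (by omega)]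
    congr 2
    exact Fin.ext (by simp [ix_val, add_comm])
  rw [comp_apply, pb_sq, h2, h3, sq]
  congr 2
  · ext u
    simp [cL_apply]
  · ext u
    simp [cL_apply]

theorem topC_om0_pow : topC n (om0 n ^ n) = n.factorial := by
  have h := (sum_pow_length (List.ofFn fun a : Fin n => sq (zc a))
    (fun u hu => by
      obtain ⟨a, rfl⟩ := List.mem_ofFn.1 hu
      exact even_comm (inv_sq _))
    (fun u hu => by
      obtain ⟨a, rfl⟩ := List.mem_ofFn.1 hu
      exact sq_mul_self _)).1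
  rw [List.length_ofFn, List.sum_ofFn] at h
  rw [om0, herm, h, map_nsmul, topC_prod, nsmul_one]

section gram

variable {κ : Type} [Fintype κ]

/-- the Gram matrix of a family of covectors -/
def gram (l : κ → Cn n →L[ℂ] ℂ) : Matrix (Fin n) (Fin n) ℂ :=
  Matrix.of fun a b =>
    ∑ k, conj (l k (EuclideanSpace.single a 1)) * l k (EuclideanSpace.single b 1)

theorem lin_apply (l : Cn n →L[ℂ] ℂ) (v : Cn n) :
    l v = ∑ a, l (EuclideanSpace.single a 1) * v a := by
  conv_lhs => rw [← (EuclideanSpace.basisFun (Fin n) ℂ).sum_repr v, map_sum]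
  refine Finset.sum_congr rfl fun a _ => ?_
  rw [map_smul, smul_eq_mul, mul_comm]
  simp

theorem sum_conj_mul (l : κ → Cn n →L[ℂ] ℂ) (v w : Cn n) :
    ∑ k, conj (l k v) * l k w = ∑ a, ∑ b, conj (v a) * gram l a b * w b := by
  simp only [gram, Matrix.of_apply, Finset.mul_sum, Finset.sum_mul]
  rw [Finset.sum_congr rfl fun k _ => by rw [lin_apply (l k) v, lin_apply (l k) w]]
  simp only [map_sum, map_mul, Finset.mul_sum, Finset.sum_mul]
  rw [Finset.sum_comm, Finset.sum_congr rfl fun b _ => Finset.sum_comm, Finset.sum_comm]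
  refine Finset.sum_congr rfl fun a _ => Finset.sum_congr rfl fun b _ =>
    Finset.sum_congr rfl fun k _ => ?_
  ring

open scoped MatrixOrder in
theorem exists_gram (l : κ → Cn n →L[ℂ] ℂ) :
    ∃ B : Matrix (Fin n) (Fin n) ℂ, gram l = Bᴴ * B := by
  have h : gram l = (Matrix.of fun k a => l k (EuclideanSpace.single a 1))ᴴ *
      Matrix.of fun k a => l k (EuclideanSpace.single a 1) := by
    ext a b
    simp [gram, Matrix.mul_apply]
  have h1 : (gram l).PosSemidef := h ▸ Matrix.posSemidef_conjTranspose_mul_self _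
  exact CStarAlgebra.nonneg_iff_eq_star_mul_self.1 h1.nonneg

theorem exists_herm_eq (l : κ → Cn n →L[ℂ] ℂ) : ∃ L : Cn n →L[ℂ] Cn n,
    (herm fun k => (l k).restrictScalars ℝ) =
      pb ((L : Cn n →ₗ[ℂ] Cn n).restrictScalars ℝ) (om0 n) ∧
    (Complex.normSq (LinearMap.det (L : Cn n →ₗ[ℂ] Cn n)) : ℂ) = (gram l).det ∧
    ∀ v, L v = 0 → ∀ k, l k v = 0 := by
  obtain ⟨B, hB⟩ := exists_gram l
  let L : Cn n →L[ℂ] Cn n := LinearMap.toContinuousLinearMap (Matrix.toLpLin 2 2 B)
  have hL : ∀ v a, L v a = ∑ b, B a b * v b := fun v a => rfl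
  have key : ∀ v w, ∑ k, conj (l k v) * l k w = ∑ a, conj (L v a) * L w a := by
    intro v w
    rw [sum_conj_mul, hB]
    simp only [hL, Matrix.mul_apply, Matrix.conjTranspose_apply, map_sum, map_mul, Finset.mul_sum,
      Finset.sum_mul]
    rw [Finset.sum_comm, Finset.sum_congr rfl fun b _ => Finset.sum_comm, Finset.sum_comm]
    refine Finset.sum_congr rfl fun a _ => Finset.sum_congr rfl fun b _ =>
      Finset.sum_congr rfl fun k _ => ?_
    rw [Complex.star_def]
    ring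
  refine ⟨L, ?_, ?_, fun v hv k => ?_⟩
  · refine Eq.trans ?_ (pb_herm (L.restrictScalars ℝ) zc).symm
    exact herm_congr key
  · have h1 : LinearMap.det (L : Cn n →ₗ[ℂ] Cn n) = B.det := by
      rw [← LinearMap.det_toMatrix (EuclideanSpace.basisFun (Fin n) ℂ).toBasis]
      congr 1
      ext a b
      rw [LinearMap.toMatrix_apply]
      simp [hL]
    rw [h1, hB, Matrix.det_mul, Matrix.det_conjTranspose, Complex.normSq_eq_conj_mul_self]
    rfl
  · have h1 := key v v
    rw [hv] at h1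
    simp only [PiLp.zero_apply, mul_zero, Finset.sum_const_zero,
      ← Complex.normSq_eq_conj_mul_self, ← Complex.ofReal_sum, Complex.ofReal_eq_zero] at h1
    exact Complex.normSq_eq_zero.1
      ((Finset.sum_eq_zero_iff_of_nonneg fun k _ => Complex.normSq_nonneg _).1 h1 k
        (Finset.mem_univ k))

/-- the top power of a Hermitian form is the determinant -/
theorem topC_herm_pow (l : κ → Cn n →L[ℂ] ℂ) :
    topC n ((herm fun k => (l k).restrictScalars ℝ) ^ n) = n.factorial * (gram l).det.re := by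
  obtain ⟨L, h1, h2, -⟩ := exists_herm_eq l
  rw [h1, ← map_pow, topC_pb_hol, topC_om0_pow, ← h2, Complex.ofReal_re, mul_comm]

theorem topC_herm_nonneg (l : κ → Cn n →L[ℂ] ℂ) :
    0 ≤ topC n ((herm fun k => (l k).restrictScalars ℝ) ^ n) := by
  obtain ⟨L, h1, -, -⟩ := exists_herm_eq l
  rw [h1, ← map_pow, topC_pb_hol, topC_om0_pow]
  exact mul_nonneg (Complex.normSq_nonneg _) (Nat.cast_nonneg _)

theorem topC_herm_pos {l : κ → Cn n →L[ℂ] ℂ} (h : ∀ v, (∀ k, l k v = 0) → v = 0) :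
    0 < topC n ((herm fun k => (l k).restrictScalars ℝ) ^ n) := by
  obtain ⟨L, h1, -, h3⟩ := exists_herm_eq l
  rw [h1, ← map_pow, topC_pb_hol, topC_om0_pow]
  refine mul_pos (Complex.normSq_pos.2 ?_) (Nat.cast_pos.2 n.factorial_pos)
  have h4 : LinearMap.ker (L : Cn n →ₗ[ℂ] Cn n) = ⊥ :=
    LinearMap.ker_eq_bot'.2 fun v hv => h v (h3 v hv)
  exact ((LinearMap.isUnit_iff_ker_eq_bot _).2 h4 |>.map LinearMap.det).ne_zero

end gram

/-! ### complex covectors -/

section dz

variable {V : Type} [NormedAddCommGroup V] [NormedSpace ℝ V] [FiniteDimensional ℝ V]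

/-- a complex valued covector as a complex form -/
def dz : (V →L[ℝ] ℂ) →ₗ[ℂ] CF V where
  toFun l := ⟨io (reD l), io (imD l)⟩
  map_add' l l' := by
    refine Cx.ext ?_ ?_
    · exact (congrArg io (by ext v; simp)).trans (map_add io (reD l) (reD l'))
    · exact (congrArg io (by ext v; simp)).trans (map_add io (imD l) (imD l'))
  map_smul' c l := by
    refine Cx.ext ?_ ?_
    · change io (reD (c • l)) = c.re • io (reD l) - c.im • io (imD l)
      rw [← map_smul, ← map_smul, ← map_sub]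
      exact congrArg io (by ext v; simp)
    · change io (imD (c • l)) = c.re • io (imD l) + c.im • io (reD l)
      rw [← map_smul, ← map_smul, ← map_add]
      exact congrArg io (by ext v; simp)

theorem dz_re (l : V →L[ℝ] ℂ) : (dz l).re = io (reD l) := rfl

theorem dz_im (l : V →L[ℝ] ℂ) : (dz l).im = io (imD l) := rfl

/-- the conjugate covector -/
def cj (l : V →L[ℝ] ℂ) : V →L[ℝ] ℂ := (Complex.conjCLE : ℂ →L[ℝ] ℂ).comp l

@[simp] theorem cj_apply (l : V →L[ℝ] ℂ) (v : V) : cj l v = conj (l v) := rfl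

theorem dz_cj_mul (l : V →L[ℝ] ℂ) : dz (cj l) * dz l = ⟨0, (2 : ℝ) • sq l⟩ := by
  have h1 : reD (cj l) = reD l := by
    ext v
    simp
  have h2 : imD (cj l) = -imD l := by
    ext v
    simp
  refine Cx.ext ?_ ?_
  · change io (reD (cj l)) * io (reD l) - io (imD (cj l)) * io (imD l) = 0
    rw [h1, h2, map_neg, neg_mul, io_sq, io_sq, neg_zero, sub_zero]
  · change io (reD (cj l)) * io (imD l) + io (imD (cj l)) * io (reD l) = _
    rw [h1, h2, map_neg, neg_mul, io_anti (imD l), neg_neg, two_smul, sq]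

theorem d_fun {g : V → ℝ} {x : V} {g' : V →L[ℝ] ℝ} (h : HasFDerivAt g g' x) :
    d (fun y => algebraMap ℝ (Ext V) (g y)) x = io (g' : V →ₗ[ℝ] ℝ) := by
  have h1 : HasFDerivAt (fun y => algebraMap ℝ (Ext V) (g y)) (g'.smulRight (1 : Ext V)) x := by
    simp only [Algebra.algebraMap_eq_smul_one]
    exact h.smul_const _
  rw [d_of_hasFDerivAt h1, wd_smulRight, mul_one]

theorem dC_fun {g : V → ℂ} {x : V} {g' : V →L[ℝ] ℂ} (h : HasFDerivAt g g' x) :
    dC (fun y => algebraMap ℂ (CF V) (g y)) x = dz g' := by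
  refine Cx.ext ?_ ?_
  · exact (d_congr (Eventually.of_forall fun y => by simp)).trans
      (d_fun (Complex.reCLM.hasFDerivAt.comp x h))
  · exact (d_congr (Eventually.of_forall fun y => by simp)).trans
      (d_fun (Complex.imCLM.hasFDerivAt.comp x h))

variable {N : ℕ}

theorem nsq_eq (Z : HC N) : (nsq Z : ℂ) = ∑ k, Z k * conj (Z k) := by
  rw [nsq, Complex.ofReal_sum]
  exact Finset.sum_congr rfl fun k _ => by rw [Complex.mul_conj']; norm_cast

/-- the component of `Z' k` orthogonal to `Z` -/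
def hz (Z : HC N) (Z' : Fin (N + 1) → V →L[ℝ] ℂ) (k : Fin (N + 1)) : V →L[ℝ] ℂ :=
  Z' k - (Z k / nsq Z) • ∑ j, conj (Z j) • Z' j

theorem hz_apply (Z : HC N) (Z' : Fin (N + 1) → V →L[ℝ] ℂ) (k : Fin (N + 1)) (v : V) :
    hz Z Z' k v = Z' k v - Z k / nsq Z * ∑ j, conj (Z j) * Z' j v := by
  simp [hz]

theorem sum_hz {Z : HC N} (hZ : Z ≠ 0) (Z' : Fin (N + 1) → V →L[ℝ] ℂ) (v : V) :
    ∑ k, conj (Z k) * hz Z Z' k v = 0 := by
  have h0 : (nsq Z : ℂ) ≠ 0 := by exact_mod_cast (nsq_pos hZ).ne'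
  simp only [hz_apply, mul_sub, Finset.sum_sub_distrib]
  rw [sub_eq_zero]
  simp only [← mul_assoc, ← Finset.sum_mul, ← mul_div_assoc, ← Finset.sum_div]
  rw [Finset.sum_congr rfl fun k _ => mul_comm (conj (Z k)) (Z k), ← nsq_eq, div_self h0, one_mul]

theorem hasFDerivAt_pm {Z : V → HC N} {Z' : Fin (N + 1) → V →L[ℝ] ℂ} {x : V}
    (h : ∀ k, HasFDerivAt (fun y => Z y k) (Z' k) x) (hZ : Z x ≠ 0) (a b : Fin (N + 1)) :
    HasFDerivAt (fun y => pm (Z y) a b) ((nsq (Z x) : ℂ)⁻¹ •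
      (conj (Z x b) • hz (Z x) Z' a + Z x a • cj (hz (Z x) Z' b))) x := by
  have h0 : (nsq (Z x) : ℂ) ≠ 0 := by exact_mod_cast (nsq_pos hZ).ne'
  have hc : ∀ k, HasFDerivAt (fun y => conj (Z y k)) (cj (Z' k)) x := fun k =>
    (Complex.conjCLE : ℂ →L[ℝ] ℂ).hasFDerivAt.comp x (h k)
  have h1 := HasFDerivAt.fun_sum (u := Finset.univ) fun k _ => (h k).fun_mul (hc k)
  simp only [← nsq_eq] at h1
  have h2 := ((hasDerivAt_inv h0).hasFDerivAt.restrictScalars ℝ).comp x h1
  have h3 := ((h a).fun_mul (hc b)).fun_mul h2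
  simp only [pm_apply, div_eq_mul_inv]
  refine HasFDerivAt.congr_fderiv h3 ?_
  ext v
  simp only [hz_apply, Finset.sum_add_distrib, comp_apply, smul_apply,
    add_apply, cj_apply, smul_eq_mul, map_sub, map_mul, map_div₀,
    Complex.conj_ofReal, map_sum, Complex.conj_conj, ContinuousLinearMap.comp_apply,
    ContinuousLinearMap.coe_restrictScalars', ContinuousLinearMap.toSpanSingleton_apply,
    sum_apply]
  field_simp
  ring

/-- `tr (Q dQ dQ)` for the projector onto the line spanned by `Z` -/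
theorem sf_pm {Z : V → HC N} {Z' : Fin (N + 1) → V →L[ℝ] ℂ} {x : V}
    (h : ∀ k, HasFDerivAt (fun y => Z y k) (Z' k) x) (hZ : Z x ≠ 0) :
    sf 1 (fun y => pm (Z y)) x = ⟨0, (2 / nsq (Z x)) • herm (hz (Z x) Z')⟩ := by
  have h0 : (nsq (Z x) : ℂ) ≠ 0 := by exact_mod_cast (nsq_pos hZ).ne'
  set D : Fin (N + 1) → Fin (N + 1) → V →L[ℝ] ℂ := fun a b => (nsq (Z x) : ℂ)⁻¹ •
      (conj (Z x b) • hz (Z x) Z' a + Z x a • cj (hz (Z x) Z' b)) with hD
  have h1 : ∀ a b, DD (fun y => pm (Z y)) x a b = dz (D a b) := fun a b =>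
    dC_fun (hasFDerivAt_pm h hZ a b)
  have h2 : ∀ c, ∑ b, conj (Z x b) • D b c = cj (hz (Z x) Z' c) := by
    intro c
    ext v
    simp only [hD, sum_apply, smul_apply,
      add_apply, smul_eq_mul, cj_apply]
    have h3 : ∀ b, conj (Z x b) * ((nsq (Z x) : ℂ)⁻¹ *
        (conj (Z x c) * hz (Z x) Z' b v + Z x b * conj (hz (Z x) Z' c v))) =
        (nsq (Z x) : ℂ)⁻¹ * conj (Z x c) * (conj (Z x b) * hz (Z x) Z' b v) +
          (nsq (Z x) : ℂ)⁻¹ * conj (hz (Z x) Z' c v) * (Z x b * conj (Z x b)) := fun b => by ring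
    simp only [h3, Finset.sum_add_distrib, ← Finset.mul_sum, sum_hz hZ, ← nsq_eq]
    field_simp
    ring
  have h4 : ∀ c, ∑ a, Z x a • D c a = hz (Z x) Z' c := by
    intro c
    ext v
    simp only [hD, sum_apply, smul_apply,
      add_apply, smul_eq_mul, cj_apply]
    have h3 : ∀ a, Z x a * ((nsq (Z x) : ℂ)⁻¹ *
        (conj (Z x a) * hz (Z x) Z' c v + Z x c * conj (hz (Z x) Z' a v))) =
        (nsq (Z x) : ℂ)⁻¹ * hz (Z x) Z' c v * (Z x a * conj (Z x a)) +
          (nsq (Z x) : ℂ)⁻¹ * Z x c * conj (conj (Z x a) * hz (Z x) Z' a v) := fun a => by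
      rw [map_mul, Complex.conj_conj]
      ring
    simp only [h3, Finset.sum_add_distrib, ← Finset.mul_sum, ← map_sum, sum_hz hZ, ← nsq_eq]
    field_simp
    simp
  have h5 : sf 1 (fun y => pm (Z y)) x =
      (nsq (Z x) : ℂ)⁻¹ • ∑ c, dz (cj (hz (Z x) Z' c)) * dz (hz (Z x) Z' c) := by
    simp only [← h2]
    conv_rhs => enter [2, 2, c, 2, 2]; rw [← h4 c]
    simp only [sf, mul_one, pow_two, Matrix.trace, Matrix.diag_apply, Matrix.mul_apply, h1, hat,
      Matrix.map_apply, map_sum, map_smul, Finset.mul_sum, Finset.sum_mul, Finset.smul_sum,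
      ← Algebra.smul_def, smul_mul_smul_comm, smul_smul, pm_apply]
    rw [Finset.sum_congr rfl fun a _ => Finset.sum_comm, Finset.sum_comm]
    refine Finset.sum_congr rfl fun c _ => Finset.sum_congr rfl fun a _ =>
      Finset.sum_congr rfl fun b _ => ?_
    congr 1
    ring
  rw [h5]
  simp only [dz_cj_mul]
  rw [← Complex.ofReal_inv]
  refine Cx.ext ?_ ?_
  · have h6 := map_sum (Cx.imA (Ext V)) (fun c => (⟨0, (2 : ℝ) • sq (hz (Z x) Z' c)⟩ : CF V))
      Finset.univ
    have h7 := map_sum (Cx.reA (Ext V)) (fun c => (⟨0, (2 : ℝ) • sq (hz (Z x) Z' c)⟩ : CF V))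
      Finset.univ
    change _ • Cx.reA (Ext V) _ - _ • Cx.imA (Ext V) _ = 0
    rw [h7]
    simp [Cx.reA]
  · have h6 := map_sum (Cx.imA (Ext V)) (fun c => (⟨0, (2 : ℝ) • sq (hz (Z x) Z' c)⟩ : CF V))
      Finset.univ
    change _ • Cx.imA (Ext V) _ + _ • Cx.reA (Ext V) _ = _
    rw [h6, Complex.ofReal_im, zero_smul, add_zero, Complex.ofReal_re, herm, div_eq_inv_mul,
      mul_smul]
    congr 1
    rw [Finset.smul_sum]
    rfl

end dz

end Crest.Agent.X262.Man
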