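import Crest.Agent.X262.Man.Deg
import Crest.Agent.X262.Man.Th

/-!
# Row 262, MAN (helper16), part 7: the point; the degree formula in the language of `Coh`

* `intP_one` : `∫ 1 = 1` in dimension `0`;
* `degB`, `degD` : the degree formula for `Bim` and for dominant morphisms.
-/

set_option autoImplicit false
set_option linter.unusedSectionVars false
set_option linter.style.haveILetI false

open Set Filter Topology Function Module MeasureTheory

noncomputable section

namespace Crest.Agent.X262.Man

open Crest.Agent.R208.F Crest.Agent.R208.FI Crest.Agent.R208.CW Crest.Agent.R208.T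
open Crest.Agent.R275.Geo (Cn RI rc Atl)
open Crest.Agent.X277 Crest.Agent.X277.Lef Crest.Agent.X277.AN.G1
open Crest.Agent.X277.BD (dim deg)
open Crest.Agent.X262.Coh

theorem volume_Cn_zero : volume (univ : Set (Cn 0)) = 1 := by
  haveI : IsEmpty (Fin (2 * 0)) := inferInstanceAs (IsEmpty (Fin 0))
  rw [← (measurePreserving_cL (n := 0)).measure_preimage MeasurableSet.univ.nullMeasurableSet,
    preimage_univ, volume_euclideanSpace_eq_dirac]
  simp

theorem Emb.Int_one {M : Type} [TopologicalSpace M] [CompactSpace M] [ConnectedSpace M]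
    {A : Atl 0 M} {E : Type} [NormedAddCommGroup E] [NormedSpace ℝ E] [FiniteDimensional ℝ E]
    (ε : Emb A E) : ε.Int 1 = 1 := by
  borelize M
  haveI : DiscreteTopology M := discreteTopology_iff_isOpen_singleton.2 fun x => by
    obtain ⟨i, hi⟩ := A.cover x
    convert (A.e i).open_source
    exact (eq_singleton_iff_unique_mem.2 ⟨hi, fun y hy =>
      (A.e i).injOn hy hi (Subsingleton.elim _ _)⟩).symm
  haveI : Subsingleton M := PreconnectedSpace.trivial_of_discrete
  obtain ⟨x⟩ : Nonempty M := inferInstance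
  obtain ⟨i, hi⟩ := A.cover x
  have h1 : ∀ z, topC 0 (pull (ε.par i) 1 z) = 1 := fun z => by
    have h := topC_om0_pow (n := 0)
    rw [pow_zero, Nat.factorial_zero, Nat.cast_one] at h
    rw [← h, pull]
    exact congrArg _ (map_one _)
  have h2 : A.e i '' univ = univ := eq_univ_of_forall fun z => ⟨x, trivial, Subsingleton.elim _ _⟩
  rw [ε.Int_eq, ← setIntegral_univ, ε.setInt_chart' (i := i) MeasurableSet.univ
    fun y _ => Subsingleton.elim x y ▸ hi, h2]
  simp [h1, Measure.real, volume_Cn_zero]

variable {F : Type} [Field F] [Algebra ℂ F] {P : PModel ℂ F}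

theorem intP_one (h : dim ℂ F = 0) : intP P 1 = 1 := by
  obtain ⟨X⟩ : Nonempty (AnP P 0) := h ▸ nonempty_an P
  haveI := connectedP P
  rw [← rcl_one, intP_rcl, IntP_eq X, (emb X).Int_one, Complex.ofReal_one]

theorem degD {X Y : SV} {μ : Hom X Y} {α : Y.F →ₐ[ℂ] X.F} (hμ : μ.p = Plc.ofHom α)
    (hd : X.dim = Y.dim) (a : HP Y.P) : intP X.P (pullH μ a) = deg α * intP Y.P a :=
  intP_pullH hμ hd a

theorem deg_of_surjective {K : Type} [Field K] [Algebra ℂ K] {α : F →ₐ[ℂ] K}
    (h : Surjective α) : deg α = 1 := by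
  letI := α.toRingHom.toAlgebra
  exact (LinearEquiv.ofBijective (Algebra.linearMap F K) ⟨α.injective, h⟩).finrank_eq.symm.trans
    (Module.finrank_self F)

theorem degB {X Y : SV} {μ : Hom X Y} (hμ : Bim μ) (a : HP Y.P) :
    intP X.P (pullH μ a) = intP Y.P a := by
  obtain ⟨α, h1, h2⟩ := hμ
  have h3 := deg_of_surjective h2
  rw [degD h1 ((BD.deg_pos_iff α).1 (h3 ▸ one_pos)), h3, Nat.cast_one, one_mul]

end Crest.Agent.X262.Man
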