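import Crest.Agent.X262.Kah.ClsT

/-!
# Row 262, MAN (helper16), part 8: the integral in terms of a partition of unity

* `Emb.Int_part`, `Emb.integ_toH` : `ε.integ (toH ε u) = IntF P (tpT n) u`;
* `intP_toH`, `intBr` : the same for `intP`.
-/

set_option autoImplicit false
set_option linter.unusedSectionVars false
set_option linter.style.haveILetI false

open Set Filter Topology Function Module MeasureTheory
open scoped ContDiff

noncomputable section

namespace Crest.Agent.X262.Man

open Crest.Agent.R208.F Crest.Agent.R208.FI Crest.Agent.R208.CW Crest.Agent.R208.T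
open Crest.Agent.R275.Geo (Cn RI rc cc Atl Part)
open Crest.Agent.R275.SerG398 (lint)
open Crest.Agent.R273.DnInt_505 (sum_psi_fin)
open Crest.Agent.X262.Kah (ZF toH toH_eq exists_Z IntF tpT res0 res0_apply dnF)

variable {n : ℕ} {M : Type} [TopologicalSpace M] {A : Atl n M}

/-- `cc` through `cL` -/
def ccE (n : ℕ) : (RI n → ℝ) ≃ᵐ Cn n :=
  ((MeasurableEquiv.piCongrLeft (fun _ : Fin (2 * n) => ℝ) (ix n)).trans
    (MeasurableEquiv.toLp 2 _)).trans (cL n).toHomeomorph.toMeasurableEquiv

theorem ccE_apply (x : RI n → ℝ) : ccE n x = cc x := by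
  ext a
  have h : ∀ p : RI n, MeasurableEquiv.piCongrLeft (fun _ : Fin (2 * n) => ℝ) (ix n) x (ix n p)
      = x p := fun p => MeasurableEquiv.piCongrLeft_apply_apply (β := fun _ => ℝ) (ix n) x p
  exact congrArg₂ (fun s t : ℝ => (s : ℂ) + (t : ℂ) * Complex.I) (h (a, 0)) (h (a, 1))

theorem measurePreserving_ccE : MeasurePreserving (ccE n) volume volume :=
  measurePreserving_cL.comp ((PiLp.volume_preserving_toLp _).comp
    (volume_measurePreserving_piCongrLeft (fun _ : Fin (2 * n) => ℝ) (ix n)))

theorem lint_eq (j : A.ι) (f : M → ℂ) :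
    lint A j f = ∫ z in (A.e j).target, f ((A.e j).symm z) := by
  rw [← integral_indicator (A.e j).open_target.measurableSet,
    ← measurePreserving_ccE.integral_comp']
  refine integral_congr_ae (Eventually.of_forall fun x => ?_)
  simp only [ccE_apply, R275.Geo.rd, indicator_apply]
  congr

theorem psi_zero (P : Part A) {j : A.ι} {x : M} (hx : x ∉ (A.e j).source) : P.ψ j x = 0 :=
  image_eq_zero_of_notMem_tsupport fun h => hx (P.χ_sub j (subset_tsupport _ (by
    rw [mem_support, (P.χ_one j x h).self_of_nhds]; exact one_ne_zero)))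

namespace Emb

variable {E : Type} [NormedAddCommGroup E] [NormedSpace ℝ E] [FiniteDimensional ℝ E]
  (ε : Emb A E) [CompactSpace M]

theorem int_psi [MeasurableSpace M] [BorelSpace M] (P : Part A) (j : A.ι) (om : E → Ext E) :
    ∫ x, P.ψ j x * ε.den om x ∂ε.vol =
      ∫ z in (A.e j).target, P.ψ j ((A.e j).symm z) * topC n (pull (ε.par j) om z) := by
  rw [← (A.e j).image_source_eq_target,
    ← ε.setInt_chart (A.e j).open_source.measurableSet Subset.rfl,
    setIntegral_eq_integral_of_forall_compl_eq_zero fun x hx => by rw [psi_zero P hx, zero_mul]]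

/-- the integral as a sum over a partition of unity -/
theorem Int_part [T2Space M] [Fintype A.ι] (P : Part A) {om : E → Ext E} (h : ContinuousOn om ε.X) :
    ε.Int om = ∑ j, ∫ z in (A.e j).target,
      P.ψ j ((A.e j).symm z) * topC n (pull (ε.par j) om z) := by
  borelize M
  simp only [← ε.int_psi]
  rw [← integral_finset_sum (f := fun j x => P.ψ j x * ε.den om x) _ fun j _ =>
    ((continuous_of_sm (P.ψ_sm j)).mul (ε.continuous_den h)).integrable_of_hasCompactSupport
      (HasCompactSupport.of_compactSpace _), ε.Int_eq]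
  refine integral_congr_ae (Eventually.of_forall fun x => ?_)
  simp only [← Finset.sum_mul]
  rw [sum_psi_fin, one_mul]

theorem integrableOn_psi (P : Part A) (j : A.ι) {om : E → Ext E} (h : Sm ε.X om) :
    IntegrableOn (fun z => P.ψ j ((A.e j).symm z) * topC n (pull (ε.par j) om z))
      (A.e j).target := by
  have hK : IsCompact (A.e j '' tsupport (P.χ j)) :=
    (P.χ_cpt j).image_of_continuousOn ((A.e j).continuousOn.mono (P.χ_sub j))
  have hs : A.e j '' tsupport (P.χ j) ⊆ (A.e j).target := by
    rintro _ ⟨x, hx, rfl⟩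
    exact (A.e j).map_source (P.χ_sub j hx)
  have hc : ContinuousOn (fun z => P.ψ j ((A.e j).symm z) * topC n (pull (ε.par j) om z))
      (A.e j).target := (P.ψ_sm j j).continuousOn.mul (continuous_topC.comp_continuousOn
        fun z hz => (ε.contDiffAt_pull_par h hz).continuousAt.continuousWithinAt)
  refine ((hc.mono hs).integrableOn_compact hK).of_forall_diff_eq_zero
    (A.e j).open_target.measurableSet fun z hz => ?_
  have h0 : P.ψ j ((A.e j).symm z) = 0 := image_eq_zero_of_notMem_tsupport fun h1 =>
    hz.2 ⟨_, subset_tsupport _ (by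
      rw [mem_support, (P.χ_one j _ h1).self_of_nhds]; exact one_ne_zero), (A.e j).right_inv hz.1⟩
  rw [h0, zero_mul]

variable [T2Space M] [Finite A.ι]

theorem intF_res0 (P : Part A) {w : E → CF E} (h : Smo ε.X w) :
    IntF P (tpT n) (res0 ε w h) = ⟨ε.Int fun y => (w y).re, ε.Int fun y => (w y).im⟩ := by
  have := Fintype.ofFinite A.ι
  have h1 : Sm ε.X fun y => (w y).re := fun x hx => (h x hx).re
  have h2 : Sm ε.X fun y => (w y).im := fun x hx => (h x hx).im
  rw [Kah.IntF_apply, R273.DnInt_505.IntP_eq, 
    ε.Int_part P fun x hx => (h1 x hx).continuousAt.continuousWithinAt,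
    ε.Int_part P fun x hx => (h2 x hx).continuousAt.continuousWithinAt,
    Complex.mk_eq_add_mul_I, Complex.ofReal_sum, Complex.ofReal_sum, Finset.sum_mul,
    ← Finset.sum_add_distrib]
  refine Finset.sum_congr rfl fun j _ => ?_
  rw [lint_eq, ← integral_complex_ofReal, ← integral_complex_ofReal, ← integral_mul_const,
    ← integral_add (ε.integrableOn_psi P j h1).ofReal
      ((ε.integrableOn_psi P j h2).ofReal.mul_const _)]
  refine setIntegral_congr_fun (A.e j).open_target.measurableSet fun z hz => ?_
  simp only [dnF, (A.e j).right_inv hz, res0_apply ε h hz, Kah.tpT_t]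
  apply Complex.ext <;> simp <;> exact Or.inl rfl

/-- **the two integrals agree** -/
theorem integ_toH (P : Part A) (u : ZF A) : ε.integ (toH ε u) = IntF P (tpT n) u.1 := by
  obtain ⟨w, h, e⟩ := exists_Z ε u
  rw [toH_eq ε h e, ε.integ_cls, ← e, ε.intF_res0]

theorem integ_toH' (P : Part A) (u : ZF A) :
    ε.integ (toH ε u) = ((1 : ℝ) : ℂ) * IntF P (tpT n) u.1 := by
  rw [ε.integ_toH P, Complex.ofReal_one, one_mul]

end Emb

open Crest.Agent.X277.Lef Crest.Agent.X277.AN.G1 in
/-- the integral on a projective model, in any atlas -/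
theorem intP_toH {F : Type} [Field F] [Algebra ℂ F] {P : PModel ℂ F} (X : AnP P n)
    (Q : Part X.A) (u : ZF X.A) :
    intP P (toH (emb X) u) = ((1 : ℝ) : ℂ) * IntF Q (tpT n) u.1 := by
  exact (intP_eq X _).trans ((emb X).integ_toH' Q u)

theorem intBr : Kah.IntBr := fun X => ⟨1, one_pos, intP_toH (an X.P) _⟩

end Crest.Agent.X262.Man
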