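import Crest.Agent.X262.Man.PM
import Crest.Agent.X277.BD.Num

/-!
# Row 262, MAN (helper16), part 6: the degree formula

* `exists_count` : a dominant morphism between varieties of the same dimension is locally injective
  on a Zariski open set and has `deg` points in the general fibre;
* `IntP_pull`, `intP_pullH` : `∫ μ^* a = deg · ∫ a`.
-/

set_option autoImplicit false
set_option linter.unusedSectionVars false
set_option linter.style.haveILetI false

open Set Filter Topology Function Module MeasureTheory Polynomial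
open scoped ContDiff

noncomputable section

namespace Crest.Agent.X262.Man

open Crest.Agent.R208.F Crest.Agent.R208.FI Crest.Agent.R208.CW Crest.Agent.R208.T
open Crest.Agent.X277.Lef Crest.Agent.X277.AN.G1
open Crest.Agent.X277.BD (dim deg deg_pos_iff)

variable {F K : Type} [Field F] [Algebra ℂ F] [Field K] [Algebra ℂ K] {P : PModel ℂ F}
  {P' : PModel ℂ K} {μ : Mor P' P} {α : F →ₐ[ℂ] K}

theorem ae_mem (f : F) : ∀ᵐ x ∂volP P, f ∈ (X277.AN.G1.lp x).O := by
  by_cases hf : f = 0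
  · exact Eventually.of_forall fun x => hf ▸ zero_mem _
  · exact (ae_ev_ne hf).mono fun x => LP.mem_of_ne

theorem ev_map_hom (hμ : μ.p = Plc.ofHom α) {x : Pts P'} {f : F}
    (hf : f ∈ (X277.AN.G1.lp (μ.map x)).O) : ev f (μ.map x) = ev (α f) x := by
  rw [μ.ev_map hf, hμ, Plc.ofHom_π]

theorem ae_map_pat (hμ : μ.p = Plc.ofHom α) (i : Fin (P.N + 1)) :
    ∀ᵐ x ∂volP P', μ.map x ∈ pat P i := by
  have h : ∀ j, ∀ᵐ x ∂volP P', ev (α (P.y i / P.y j)) x ≠ 0 := fun j =>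
    ae_ev_ne ((map_ne_zero α).2 (div_ne_zero (P.y_ne i) (P.y_ne j)))
  filter_upwards [ae_all_iff.2 h] with x hx
  obtain ⟨j, hj⟩ := exists_pat (μ.map x)
  rw [mem_pat_iff hj, ev_map_hom hμ (y_mem hj i)]
  exact hx j

theorem ae_map_mem (hμ : μ.p = Plc.ofHom α) (f : F) :
    ∀ᵐ x ∂volP P', f ∈ (X277.AN.G1.lp (μ.map x)).O := by
  obtain ⟨a, ha, c, hc, hc0, rfl⟩ := P.frac' 0 f
  filter_upwards [ae_map_pat hμ 0, ae_ev_ne (P := P') ((map_ne_zero α).2 hc0)] with x h1 h2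
  rw [← ev_map_hom hμ (A_le h1 hc)] at h2
  exact LP.div_mem (A_le h1 ha) h2

/-- the coefficients are regular -/
def RegC (L : LP F) (p : F[X]) : Prop := ∀ k, p.coeff k ∈ L.O

theorem RegC.exists_lift {L : LP F} {p : F[X]} (h : RegC L p) :
    ∃ q : L.O[X], q.map (algebraMap L.O F) = p :=
  (mem_lifts p).1 ((lifts_iff_coeff_lifts p).2 fun k => ⟨⟨_, h k⟩, rfl⟩)

theorem v_eval₂ {L : LP F} {L' : LP K} (h : L.Dom (L'.comap (Plc.ofHom α))) {θ : K}
    (hθ : θ ∈ L'.O) (q : L.O[X]) :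
    (q.map (algebraMap L.O F)).eval₂ (α : F →+* K) θ ∈ L'.O ∧
      L'.v ((q.map (algebraMap L.O F)).eval₂ (α : F →+* K) θ) =
        (q.map (L.hom : L.O →+* ℂ)).eval (L'.v θ) := by
  induction q using Polynomial.induction_on' with
  | add p q hp hq =>
    rw [Polynomial.map_add, eval₂_add, Polynomial.map_add, eval_add, L'.v_add hp.1 hq.1, hp.2, hq.2]
    exact ⟨add_mem hp.1 hq.1, rfl⟩
  | monomial k c =>
    have h1 : α c ∈ L'.O := (h.le c.2).2
    have h2 : L'.v (α c) = L.v c := h.eq _ c.2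
    rw [Polynomial.map_monomial, eval₂_monomial, Polynomial.map_monomial, eval_monomial]
    exact ⟨mul_mem h1 (pow_mem hθ k), by
      rw [show (α : F →+* K) (algebraMap L.O F c) = α c from rfl, L'.v_mul h1 (pow_mem hθ k),
        LP.v_pow hθ, h2]; rfl⟩

/-- a root of the specialised minimal polynomial is a point -/
theorem exists_lp_root (L : LP F) {θ : K} {m : L.O[X]} (hm : m.Monic)
    (hd : ∀ p : F[X], p.eval₂ (α : F →+* K) θ = 0 → m.map (algebraMap L.O F) ∣ p) {t : ℂ}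
    (ht : (m.map (L.hom : L.O →+* ℂ)).eval t = 0) :
    ∃ L' : LP K, L.Dom (L'.comap (Plc.ofHom α)) ∧ θ ∈ L'.O ∧ L'.v θ = t := by
  let E : L.O[X] →ₐ[ℂ] K := aevalTower (α.comp L.O.val) θ
  have hE : ∀ q, E q = (q.map (algebraMap L.O F)).eval₂ (α : F →+* K) θ := fun q => by
    rw [eval₂_map]
    rfl
  let χ : E.range →ₐ[ℂ] ℂ := AlgHom.liftOfSurjective E.rangeRestrict E.rangeRestrict_surjective
    (aevalTower L.hom t) (by
      intro q hq
      have h1 : E q = 0 := congrArg Subtype.val (show E.rangeRestrict q = 0 from hq)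
      obtain ⟨r, rfl⟩ := (map_dvd_map _ Subtype.val_injective hm).1 (hd _ ((hE q).symm.trans h1))
      have h2 : aevalTower L.hom t m = 0 := by
        rw [eval_map] at ht
        exact ht
      show aevalTower L.hom t (m * r) = 0
      rw [map_mul, h2, zero_mul])
  have hχ : ∀ q, (lpAt χ).v (E q) = aevalTower L.hom t q := fun q =>
    (lpAt_v χ (E.rangeRestrict q)).trans (AlgHom.liftOfSurjective_apply _ _ _ _ _)
  have hC : ∀ c : L.O, E (C c) = α c := fun c => aevalTower_C _ _ _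
  have hX : E X = θ := aevalTower_X _ _
  refine ⟨lpAt χ, ⟨fun f hf => ⟨Algebra.mem_top, le_lpAt χ ⟨C ⟨f, hf⟩, hC _⟩⟩, fun f hf => ?_⟩,
    le_lpAt χ ⟨X, hX⟩, ?_⟩
  · have h1 := hχ (C ⟨f, hf⟩)
    rw [hC, aevalTower_C] at h1
    exact h1
  · rw [← hX, hχ, aevalTower_X]

theorem eq_of_root {p : ℂ[X]} {d : ℕ} (hd : p.natDegree < d) {s t : ℂ} (hs : p.eval s = 0)
    (ht : p.eval t = 0)
    (h : ∑ k ∈ Finset.range d, p.coeff k * ∑ i ∈ Finset.range k, s ^ i * t ^ (k - 1 - i) ≠ 0) :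
    s = t := by
  have h1 : (∑ k ∈ Finset.range d, p.coeff k * ∑ i ∈ Finset.range k, s ^ i * t ^ (k - 1 - i)) *
      (s - t) = p.eval s - p.eval t := by
    rw [eval_eq_sum_range' hd, eval_eq_sum_range' hd, Finset.sum_mul, ← Finset.sum_sub_distrib]
    exact Finset.sum_congr rfl fun k _ => by rw [mul_assoc, geom_sum₂_mul, mul_sub]
  rw [hs, ht, sub_zero] at h1
  exact sub_eq_zero.1 ((mul_eq_zero.1 h1).resolve_left h)

theorem eval_derivative_eq {p : ℂ[X]} {d : ℕ} (hd : p.natDegree < d) (t : ℂ) :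
    ∑ k ∈ Finset.range d, p.coeff k * ∑ i ∈ Finset.range k, t ^ i * t ^ (k - 1 - i) =
      (derivative p).eval t := by
  rw [derivative_eval, sum_over_range' _ (by simp) d hd]
  exact Finset.sum_congr rfl fun k _ => by rw [geom_sum₂_self, mul_assoc]

theorem continuousAt_dd {T : Type*} [TopologicalSpace T] {c : ℕ → T → ℂ} {s : T → ℂ} {x : T}
    (hc : ∀ k, ContinuousAt (c k) x) (hs : ContinuousAt s x) (d : ℕ) :
    ContinuousAt (fun z : T × T => ∑ k ∈ Finset.range d,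
      c k z.1 * ∑ i ∈ Finset.range k, s z.1 ^ i * s z.2 ^ (k - 1 - i)) (x, x) := by
  have h1 : ContinuousAt (fun z : T × T => s z.1) (x, x) :=
    ContinuousAt.comp (g := s) (f := Prod.fst) hs continuousAt_fst
  have h2 : ContinuousAt (fun z : T × T => s z.2) (x, x) :=
    ContinuousAt.comp (g := s) (f := Prod.snd) hs continuousAt_snd
  refine tendsto_finsetSum _ fun k _ => Tendsto.mul ?_ ?_
  · exact ContinuousAt.comp (g := c k) (f := Prod.fst) (hc k) continuousAt_fst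
  · exact tendsto_finsetSum _ fun i _ => Tendsto.mul (h1.pow i) (h2.pow _)

/-- **the general fibre** -/
theorem exists_count (hμ : μ.p = Plc.ofHom α) (hd : dim ℂ K = dim ℂ F) : ∃ U : Set (Pts P'),
    MeasurableSet U ∧ volP P' Uᶜ = 0 ∧ (∀ x ∈ U, ∃ W ∈ 𝓝 x, InjOn μ.map (U ∩ W)) ∧
      ∀ᵐ y ∂volP P, (U ∩ μ.map ⁻¹' {y}).encard = deg α := by
  classical
  haveI := essFiniteType P
  haveI := essFiniteType P'
  have hpos := (deg_pos_iff α).2 hd
  letI := α.toRingHom.toAlgebra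
  haveI : FiniteDimensional F K := Module.finite_of_finrank_pos hpos
  haveI : CharZero F := charZero_of_injective_algebraMap (algebraMap ℂ F).injective
  let pw := Field.powerBasisOfFiniteOfSeparable F K
  set θ := pw.gen with hθ
  set m := minpoly F θ with hm
  have hmo : m.Monic := minpoly.monic pw.isIntegral_gen
  have hmd : m.natDegree = deg α := pw.natDegree_minpoly.trans pw.finrank.symm
  have hm0 : m.eval₂ (α : F →+* K) θ = 0 := minpoly.aeval F θ
  have hdvd : ∀ p : F[X], p.eval₂ (α : F →+* K) θ = 0 → m ∣ p := fun p hp => minpoly.dvd F θ hp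
  obtain ⟨u, v, huv⟩ : m.Separable := Algebra.IsSeparable.isSeparable F θ
  have hq : ∀ g : K, ∃ q : F[X], q.eval₂ (α : F →+* K) θ = g := fun g =>
    (pw.exists_eq_aeval' g).imp fun q hq => hq.symm
  choose q hq using hq
  obtain ⟨a, ha, c, hc, hc0, hac⟩ := P'.frac' 0 θ
  -- the good points of `P`
  let G : Pts P → Prop := fun y => RegC (X277.AN.G1.lp y) m ∧ RegC (X277.AN.G1.lp y) u ∧
    RegC (X277.AN.G1.lp y) v ∧ RegC (X277.AN.G1.lp y) (q c⁻¹) ∧
    ∀ j, RegC (X277.AN.G1.lp y) (q (P'.y j / P'.y 0))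
  let U : Set (Pts P') := {x | x ∈ pat P' 0 ∧ ev c x ≠ 0 ∧ G (μ.map x)}
  have hθU : ∀ x ∈ U, θ ∈ (X277.AN.G1.lp x).O := fun x hx =>
    hac ▸ LP.div_mem (A_le hx.1 ha) hx.2.1
  have hdom : ∀ x, (X277.AN.G1.lp (μ.map x)).Dom ((X277.AN.G1.lp x).comap (Plc.ofHom α)) :=
    fun x => hμ ▸ μ.dom x
  have key : ∀ y, G y → ∃ p : ℂ[X], p.Separable ∧ p.Monic ∧ p.natDegree = deg α ∧
      (∀ k, p.coeff k = ev (m.coeff k) y) ∧
      BijOn (ev θ) (U ∩ μ.map ⁻¹' {y}) {t | p.eval t = 0} := by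
    intro y hy
    obtain ⟨mO, h1, h2, h3⟩ := lifts_and_natDegree_eq_and_monic
      ((mem_lifts m).2 hy.1.exists_lift) hmo
    obtain ⟨uO, hu⟩ := hy.2.1.exists_lift
    obtain ⟨vO, hv⟩ := hy.2.2.1.exists_lift
    have h4 : mO.Separable := ⟨uO, vO, Polynomial.map_injective
      (algebraMap (X277.AN.G1.lp y).O F) Subtype.val_injective (by
        rw [Polynomial.map_add, Polynomial.map_mul, Polynomial.map_mul, ← derivative_map, h1, hu,
          hv, huv, Polynomial.map_one])⟩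
    refine ⟨mO.map ((X277.AN.G1.lp y).hom : _ →+* ℂ), h4.map, h3.map _,
      (h3.natDegree_map _).trans (h2.trans hmd), fun k => ?_, ?_, ?_, ?_⟩
    · rw [coeff_map, ← h1, coeff_map]
      rfl
    · rintro x ⟨hx, rfl⟩
      have h5 := (v_eval₂ (hdom x) (hθU x hx) mO).2
      rw [h1, hm0, LP.v_zero] at h5
      exact h5.symm
    · rintro x ⟨hx, rfl⟩ x' ⟨hx', h5⟩ h6
      refine pt_ext hx.1 hx'.1 fun j => ?_
      obtain ⟨r, hr⟩ := (hy.2.2.2.2 j).exists_lift
      have h7 := (v_eval₂ (hdom x) (hθU x hx) r).2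
      have h8 := hdom x'
      rw [show μ.map x' = μ.map x from h5] at h8
      have h9 := (v_eval₂ h8 (hθU x' hx') r).2
      rw [hr, hq] at h7 h9
      exact h7.trans ((congrArg (fun s => Polynomial.eval s _) h6).trans h9.symm)
    · intro t ht
      obtain ⟨L, hL, hθL, hLt⟩ := exists_lp_root (α := α) (X277.AN.G1.lp y) h3 (h1 ▸ hdvd) ht
      have h5 : ∀ g, RegC (X277.AN.G1.lp y) (q g) → g ∈ L.O := fun g hg => by
        obtain ⟨r, hr⟩ := hg.exists_lift
        have h6 := (v_eval₂ hL hθL r).1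
        rwa [hr, hq] at h6
      obtain ⟨x, hx, hxL⟩ := exists_dom (P := P') (i := 0) L fun j => h5 _ (hy.2.2.2.2 j)
      have h6 : μ.map x = y := eq_of_dom (L := L.comap (Plc.ofHom α))
        ⟨fun f hf => ⟨Algebra.mem_top, hxL.le ((hdom x).le hf).2⟩, fun f hf =>
          (hxL.eq _ ((hdom x).le hf).2).trans ((hdom x).eq f hf)⟩ hL
      have h7 : ev c x ≠ 0 := by
        rw [ev, ← hxL.eq _ (A_le hx hc)]
        exact LP.ne_of_inv_mem (hxL.le (A_le hx hc)) hc0 (h5 _ hy.2.2.2.1)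
      have h8 : x ∈ U := ⟨hx, h7, h6 ▸ hy⟩
      exact ⟨x, ⟨h8, h6⟩, (hxL.eq _ (hθU x h8)).symm.trans hLt⟩
  have hR : ∀ p : F[X], MeasurableSet {x : Pts P' | RegC (X277.AN.G1.lp (μ.map x)) p} := fun p => by
    simp only [RegC, setOf_forall]
    exact MeasurableSet.iInter fun k =>
      ((isOpen_reg (p.coeff k)).preimage μ.continuous).measurableSet
  refine ⟨U, ?_, ?_, fun x hx => ?_, ?_⟩
  · refine (isOpen_pat P' 0).measurableSet.inter ((isOpen_ev_ne c).measurableSet.inter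
      ((hR m).inter ((hR u).inter ((hR v).inter ((hR _).inter ?_)))))
    have h1 := MeasurableSet.iInter fun j => hR (q (P'.y j / P'.y 0))
    rwa [← setOf_forall] at h1
  · have h1 : ∀ p : F[X], ∀ᵐ x ∂volP P', RegC (X277.AN.G1.lp (μ.map x)) p := fun p =>
      ae_all_iff.2 fun k => ae_map_mem hμ _
    refine (mem_ae_iff (μ := volP P')).1 ?_
    filter_upwards [ae_pat 0, ae_ev_ne hc0, h1 m, h1 u, h1 v, h1 (q c⁻¹),
      ae_all_iff.2 fun j => h1 (q (P'.y j / P'.y 0))] with x a1 a2 a3 a4 a5 a6 a7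
    exact ⟨a1, a2, a3, a4, a5, a6, a7⟩
  · let D : Pts P' × Pts P' → ℂ := fun z => ∑ k ∈ Finset.range (deg α + 1),
      ev (m.coeff k) (μ.map z.1) * ∑ i ∈ Finset.range k, ev θ z.1 ^ i * ev θ z.2 ^ (k - 1 - i)
    have h1 : ContinuousAt D (x, x) :=
      continuousAt_dd (fun k => (continuousAt_ev (hx.2.2.1 k)).comp μ.continuous.continuousAt)
        (continuousAt_ev (hθU x hx)) _
    have h2 : D (x, x) ≠ 0 := by
      obtain ⟨p, hp1, -, hp3, hp4, hp5⟩ := key _ hx.2.2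
      simp only [D, ← hp4]
      rw [eval_derivative_eq (by omega)]
      have h3 := hp1.aeval_derivative_ne_zero (x := ev θ x) (hp5.mapsTo ⟨hx, rfl⟩)
      exact h3
    have h3 := h1.eventually_ne h2
    rw [nhds_prod_eq] at h3
    obtain ⟨W, hW, h4⟩ := (eventually_prod_self_iff (r := fun a b => D (a, b) ≠ 0)).1 h3
    refine ⟨W, hW, fun x1 hx1 x2 hx2 h5 => ?_⟩
    obtain ⟨p, -, -, hp3, hp4, hp5⟩ := key _ hx1.1.2.2
    refine hp5.injOn ⟨hx1.1, rfl⟩ ⟨hx2.1, h5.symm⟩ (eq_of_root (d := deg α + 1) (by omega)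
      (hp5.mapsTo ⟨hx1.1, rfl⟩) (hp5.mapsTo ⟨hx2.1, h5.symm⟩) ?_)
    simp only [hp4]
    exact h4 x1 hx1.2 x2 hx2.2
  · have h1 : ∀ p : F[X], ∀ᵐ y ∂volP P, RegC (X277.AN.G1.lp y) p := fun p =>
      ae_all_iff.2 fun k => ae_mem _
    filter_upwards [h1 m, h1 u, h1 v, h1 (q c⁻¹),
      ae_all_iff.2 fun j => h1 (q (P'.y j / P'.y 0))] with y a3 a4 a5 a6 a7
    obtain ⟨p, hp1, hp2, hp3, -, hp5⟩ := key y ⟨a3, a4, a5, a6, a7⟩
    rw [← hp5.injOn.encard_image, hp5.image_eq, ← hp3,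
      ← card_rootSet_eq_natDegree (K := ℂ) hp1 (IsAlgClosed.splits _),
      ← Set.toFinset_card, ← encard_eq_coe_toFinset_card]
    congr 1
    ext t
    rw [mem_rootSet_of_ne hp2.ne_zero]
    rfl

/-- **the degree formula** for forms -/
theorem IntP_pull (hμ : μ.p = Plc.ofHom α) (hd : dim ℂ K = dim ℂ F)
    {w : Hm P.N → Ext (Hm P.N)} (hw : ContinuousOn w (XP P)) :
    IntP P' (pull (ambM μ) w) = deg α * IntP P w := by
  obtain ⟨U, h1, h2, h3, h4⟩ := exists_count hμ hd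
  obtain ⟨X'⟩ : Nonempty (AnP P' (dim ℂ F)) := hd ▸ nonempty_an P'
  rw [IntP_eq X']
  exact (emb X').Int_pull_of_count (em P) (μ.holMap X' (an P)) (ambM_j μ)
    (fun _ => (contDiff_ambM μ).contDiffAt.of_le (by exact_mod_cast le_top)) h1
    (volP_eq X' ▸ h2) h3 h4 hw

/-- **the degree formula** -/
theorem intP_pullH (hμ : μ.p = Plc.ofHom α) (hd : dim ℂ K = dim ℂ F) (a : HP P) :
    intP P' (pullH μ a) = deg α * intP P a := by
  obtain ⟨U, h1, h2, h3, h4⟩ := exists_count hμ hd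
  obtain ⟨X'⟩ : Nonempty (AnP P' (dim ℂ F)) := hd ▸ nonempty_an P'
  rw [intP_eq X', intP_eq (an P)]
  exact (emb X').integ_map_of_count (em P) (μ.holMap X' (an P)) (ambM_j μ) (smapM μ) h1
    (volP_eq X' ▸ h2) h3 h4 a

end Crest.Agent.X262.Man
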